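import Vale.Agent.P231.Bd3.B5

/-! P231, links of a Blaschke manifold (L1, L2): the unit vectors `u` at `y` with `exp_y (D u) = x`
form the unit sphere of a linear subspace `Pl e D x y`, its orthogonal complement consists of the
tangent directions of the cut locus of `x`; kernel and image of the differential of `exp_x` at
distance `D`. -/

set_option maxSynthPendingDepth 3
set_option linter.unusedSectionVars false

open Bundle Manifold Set Filter Module
open scoped ContDiff Manifold Topology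

namespace Vale.Agent.P231.H703

noncomputable section

open Vale.Agent.P234 Vale.Agent.P231

variable {E : Type*} [NormedAddCommGroup E] [NormedSpace ℝ E]
  {M : Type*} [MetricSpace M] [ChartedSpace E M]
  [RiemannianBundle (fun x : M => TangentSpace 𝓘(ℝ, E) x)]
  {e : ∀ x : M, TangentSpace 𝓘(ℝ, E) x → M}

omit [MetricSpace M] [ChartedSpace E M]
  [RiemannianBundle (fun x : M => TangentSpace 𝓘(ℝ, E) x)] in
theorem hasDerivAt_circle {V : Type*} [NormedAddCommGroup V] [InnerProductSpace ℝ V] (v z : V) :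
    HasDerivAt (fun s : ℝ => Real.cos s • v + Real.sin s • z) z 0 := by
  have h1 := (Real.hasDerivAt_cos 0).smul_const v
  have h2 := (Real.hasDerivAt_sin 0).smul_const z
  have h3 := h1.fun_add h2
  simpa using h3

/-- The span of the directions at `y` of the geodesics of length `D` from `y` to `x`. -/
def Pl (e : ∀ x : M, TangentSpace 𝓘(ℝ, E) x → M) (D : ℝ) (x y : M) :
    Submodule ℝ (TangentSpace 𝓘(ℝ, E) y) :=
  Submodule.span ℝ (Lk e D x y)

theorem Lk_subset_Pl (e : ∀ x : M, TangentSpace 𝓘(ℝ, E) x → M) (D : ℝ) (x y : M) :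
    Lk e D x y ⊆ Pl e D x y := Submodule.subset_span

variable [FiniteDimensional ℝ E] [IsManifold 𝓘(ℝ, E) ∞ M]
  [IsContMDiffRiemannianBundle 𝓘(ℝ, E) ∞ E (fun x : M => TangentSpace 𝓘(ℝ, E) x)]

instance finDimTS (x : M) : FiniteDimensional ℝ (TangentSpace 𝓘(ℝ, E) x) :=
  inferInstanceAs (FiniteDimensional ℝ E)

variable [CompactSpace M] [ConnectedSpace M] [IsRiemannianManifold 𝓘(ℝ, E) M]

/-- A point with a link vector is at distance `D`. -/
theorem dist_of_mem_Lk {D : ℝ} (hD : 0 < D) (hB : InjGE e D) {x y : M}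
    {u : TangentSpace 𝓘(ℝ, E) y} (hu : u ∈ Lk e D x y) : dist x y = D := by
  have h1 := hB y (D • u) (by rw [norm_smul, hu.1, mul_one, Real.norm_of_nonneg hD.le])
  rw [hu.2, norm_smul, hu.1, mul_one, Real.norm_of_nonneg hD.le] at h1
  rw [dist_comm, h1]

/-- Link vectors are orthogonal to the tangent directions of the cut locus. -/
theorem inner_Lk_Tn (F : Facts e) {D : ℝ} (hD : 0 < D) (hB : InjGE e D)
    (hdiam : ∀ p q : M, dist p q ≤ D) {x y : M} {u τ : TangentSpace 𝓘(ℝ, E) y}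
    (hu : u ∈ Lk e D x y) (hτ : τ ∈ Tn e D x y) : (inner ℝ u τ : ℝ) = 0 := by
  have h1 := link_tn_nonpos F hD hB hu hτ
  have h2 := link_tn_nonpos F hD hB (link_neg F hD hB hdiam hu) hτ
  rw [inner_neg_left] at h2
  linarith

theorem inner_Pl_Tn (F : Facts e) {D : ℝ} (hD : 0 < D) (hB : InjGE e D)
    (hdiam : ∀ p q : M, dist p q ≤ D) {x y : M} {u τ : TangentSpace 𝓘(ℝ, E) y}
    (hu : u ∈ Pl e D x y) (hτ : τ ∈ Tn e D x y) : (inner ℝ u τ : ℝ) = 0 := by
  induction hu using Submodule.span_induction with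
  | mem z hz => exact inner_Lk_Tn F hD hB hdiam hz hτ
  | zero => exact inner_zero_left _
  | add a b _ _ ha hb => rw [inner_add_left, ha, hb, add_zero]
  | smul c a _ ha => rw [inner_smul_left, ha, mul_zero]

/-- **L1**: the link is the unit sphere of `Pl`. -/
theorem mem_Lk_iff (F : Facts e) {D : ℝ} (hD : 0 < D) (hB : InjGE e D)
    (hdiam : ∀ p q : M, dist p q ≤ D) {x y : M} (hxy : dist x y = D)
    {u : TangentSpace 𝓘(ℝ, E) y} : u ∈ Lk e D x y ↔ u ∈ Pl e D x y ∧ ‖u‖ = 1 := by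
  refine ⟨fun h => ⟨Lk_subset_Pl e D x y h, h.1⟩, fun h => ?_⟩
  obtain ⟨ρ, hρ, u0, hu0, τ, hτ, hw, hρ'⟩ := decomp F hD hB hdiam hxy u
  have hτP : τ ∈ Pl e D x y := by
    have : τ = u - ρ • u0 := by rw [hw]; abel
    rw [this]
    exact Submodule.sub_mem _ h.1 (Submodule.smul_mem _ _ (Lk_subset_Pl e D x y hu0))
  have hτ0 : τ = 0 := by
    have := inner_Pl_Tn F hD hB hdiam hτP hτ
    exact inner_self_eq_zero.1 this
  rw [hτ0, add_zero] at hw
  have hρ1 : ρ = 1 := by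
    have h1 := h.2
    rw [hw, norm_smul, hu0.1, mul_one, Real.norm_of_nonneg hρ] at h1
    exact h1
  rw [hw, hρ1, one_smul]
  exact hu0

/-- **L1**: the tangent directions of the cut locus are the orthogonal complement of `Pl`. -/
theorem mem_Tn_iff (F : Facts e) {D : ℝ} (hD : 0 < D) (hB : InjGE e D)
    (hdiam : ∀ p q : M, dist p q ≤ D) {x y : M} (hxy : dist x y = D)
    {τ : TangentSpace 𝓘(ℝ, E) y} : τ ∈ Tn e D x y ↔ τ ∈ (Pl e D x y)ᗮ := by
  rw [Submodule.mem_orthogonal]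
  refine ⟨fun h u hu => inner_Pl_Tn F hD hB hdiam hu h, fun h => ?_⟩
  obtain ⟨ρ, hρ, u0, hu0, τ', hτ', hw, hρ'⟩ := decomp F hD hB hdiam hxy τ
  rw [h u0 (Lk_subset_Pl e D x y hu0)] at hρ'
  rw [hρ', zero_smul, zero_add] at hw
  rw [hw]
  exact hτ'

/-- Points at distance `D` are joined. -/
theorem Lk_nonempty (F : Facts e) {D : ℝ} (hD : 0 < D) {x y : M} (hxy : dist x y = D) :
    (Lk e D x y).Nonempty := by
  obtain ⟨v, hv, hd⟩ := F.hopfRinow y x
  have hn : ‖v‖ = D := by rw [← hd, dist_comm, hxy]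
  refine ⟨D⁻¹ • v, ?_, ?_⟩
  · rw [norm_smul, hn, norm_inv, Real.norm_of_nonneg hD.le, inv_mul_cancel₀ hD.ne']
  · rw [smul_smul, mul_inv_cancel₀ hD.ne', one_smul, hv]

/-- differential of `kap` at distance `D` -/
theorem fderiv_kap (F : Facts e) {D : ℝ} {x y : M}
    {v : TangentSpace 𝓘(ℝ, E) x} (hy : e x (D • v) = y) (ζ : TangentSpace 𝓘(ℝ, E) x) :
    (fderiv ℝ (kap e D x y) v ζ : E) = D • dE e x (D • v : TangentSpace 𝓘(ℝ, E) x) ζ := by
  let A : TangentSpace 𝓘(ℝ, E) x →L[ℝ] TangentSpace 𝓘(ℝ, E) x :=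
    D • ContinuousLinearMap.id ℝ (TangentSpace 𝓘(ℝ, E) x)
  have hA : ∀ z, A z = D • z := fun z => rfl
  have h := area_chain (M := M) (E := E) A (e x) (logMap e y)
    (ContinuousLinearMap.id ℝ (TangentSpace 𝓘(ℝ, E) y)) (ξ := v) (y := y) hy
    (contMDiff_exp_fiber F.isExp x).contMDiffAt
    (contMDiffAt_logMap F.isExp (area_smoothAt_diag F y))
  have h1 := h.2 ζ
  have h2 : (fun v' => ContinuousLinearMap.id ℝ (TangentSpace 𝓘(ℝ, E) y)
      (logMap e y (e x (A v')))) = kap e D x y := rfl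
  rw [h2] at h1
  have hk : ∀ z : M, z = y → ∀ a : E,
      (mfderiv 𝓘(ℝ, E) 𝓘(ℝ, TangentSpace 𝓘(ℝ, E) y) (logMap e y) z
        (a : TangentSpace 𝓘(ℝ, E) z) : E) = a := by
    rintro z rfl a
    exact area_dlog F z a
  refine Eq.trans h1 ?_
  refine (hk _ hy _).trans ?_
  exact dE_smul e x (D • v : TangentSpace 𝓘(ℝ, E) x) ζ D

theorem fderiv_kap_eq_zero (F : Facts e) {D : ℝ} (hD : 0 < D) {x y : M}
    {v : TangentSpace 𝓘(ℝ, E) x} (hy : e x (D • v) = y) (ζ : TangentSpace 𝓘(ℝ, E) x) :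
    fderiv ℝ (kap e D x y) v ζ = 0 ↔ dE e x (D • v : TangentSpace 𝓘(ℝ, E) x) ζ = 0 := by
  have h := fderiv_kap F hy ζ
  constructor
  · intro h0
    have h1 : D • dE e x (D • v : TangentSpace 𝓘(ℝ, E) x) ζ = 0 := h.symm.trans h0
    exact (smul_eq_zero.1 h1).resolve_left hD.ne'
  · intro h0
    exact h.trans (by rw [h0, smul_zero]; rfl)

/-- a Jacobi field vanishing at time `0` -/
theorem jf_zero (F : Facts e) (x : M) (v w : E) (t : ℝ) :
    jf e x v 0 t w = t • dE e x (t • v) w := by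
  unfold jf
  rw [gam_zero F.isExp, vel_zero F.isExp, sub_zero]

theorem ip_of_dE_eq_zero (F : Facts e) {D : ℝ} (hD : 0 < D) {x : M} {v w : E}
    (hv : nm x v = 1) (hw : dE e x (D • v) w = 0) : ip x w v = 0 := by
  have h := gauss F x v hv 0 D w
  rw [jf_zero F, hw, smul_zero, gam_zero F.isExp, vel_zero F.isExp, sub_zero] at h
  have h3 : ip (gam e x v D) 0 (vel e x v D) = 0 :=
    inner_zero_left (E := TangentSpace 𝓘(ℝ, E) (gam e x v D)) (𝕜 := ℝ) _
  rw [h3] at h
  exact (mul_eq_zero.1 h.symm).resolve_left hD.ne'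

/-- Gauss lemma at distance `D` -/
theorem inner_of_dE_eq_zero (F : Facts e) {D : ℝ} (hD : 0 < D) {x : M}
    {v : TangentSpace 𝓘(ℝ, E) x} (hv : ‖v‖ = 1) {w : TangentSpace 𝓘(ℝ, E) x}
    (hw : dE e x (D • v : TangentSpace 𝓘(ℝ, E) x) w = 0) : (inner ℝ v w : ℝ) = 0 := by
  rw [real_inner_comm]
  exact ip_of_dE_eq_zero F hD hv hw

/-- The kernel of the differential of `exp_x` at `D v`. -/
def Ker (e : ∀ x : M, TangentSpace 𝓘(ℝ, E) x → M) (D : ℝ) (x : M)
    (v : TangentSpace 𝓘(ℝ, E) x) : Submodule ℝ (TangentSpace 𝓘(ℝ, E) x) :=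
  LinearMap.ker (dEc e x (D • v)).toLinearMap

theorem mem_Ker {D : ℝ} {x : M} {v w : TangentSpace 𝓘(ℝ, E) x} :
    w ∈ Ker e D x v ↔ dE e x (D • v : TangentSpace 𝓘(ℝ, E) x) w = 0 := Iff.rfl

/-- directions of `Pl` orthogonal to `v` are in the kernel -/
theorem Pl_inf_le_Ker (F : Facts e) {D : ℝ} (hD : 0 < D) (hB : InjGE e D)
    (hdiam : ∀ p q : M, dist p q ≤ D) {x y : M} {v : TangentSpace 𝓘(ℝ, E) x} (hv : ‖v‖ = 1)
    (hy : e x (D • v) = y) {w : TangentSpace 𝓘(ℝ, E) x} (hw : w ∈ Pl e D y x)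
    (hvw : (inner ℝ v w : ℝ) = 0) : w ∈ Ker e D x v := by
  have hvL : v ∈ Lk e D y x := ⟨hv, hy⟩
  have hyx : dist y x = D := dist_of_mem_Lk hD hB hvL
  rw [mem_Ker, ← fderiv_kap_eq_zero F hD hy]
  rcases eq_or_ne w 0 with rfl | hw0
  · exact map_zero _
  obtain ⟨b, hb, hvb⟩ := link_of_dir F hv hy
  have hwn : 0 < ‖w‖ := norm_pos_iff.2 hw0
  set z : TangentSpace 𝓘(ℝ, E) x := ‖w‖⁻¹ • w with hz
  have hzn : ‖z‖ = 1 := by rw [hz, norm_smul, norm_inv, norm_norm, inv_mul_cancel₀ hwn.ne']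
  have hvz : (inner ℝ v z : ℝ) = 0 := by rw [hz, inner_smul_right, hvw, mul_zero]
  set c : ℝ → TangentSpace 𝓘(ℝ, E) x := fun s => Real.cos s • v + Real.sin s • z with hc
  have hc0 : c 0 = v := by simp [hc]
  have hcn : ∀ s, ‖c s‖ = 1 := by
    intro s
    have h1 : ‖c s‖ ^ 2 = 1 := by
      rw [hc]
      simp only
      rw [norm_add_sq_real, norm_smul, norm_smul, hv, hzn, inner_smul_left, inner_smul_right,
        hvz]
      simp
    nlinarith only [h1, norm_nonneg (c s)]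
  have hcd : HasDerivAt c z 0 := hasDerivAt_circle v z
  have hcP : ∀ s, c s ∈ Pl e D y x := fun s =>
    Submodule.add_mem _ (Submodule.smul_mem _ _ (Lk_subset_Pl e D y x hvL))
      (Submodule.smul_mem _ _ (Submodule.smul_mem _ _ hw))
  have hce : ∀ s, e x (D • c s) = y := fun s =>
    ((mem_Lk_iff F hD hB hdiam hyx).2 ⟨hcP s, hcn s⟩).2
  have hK : HasFDerivAt (kap e D x y) (fderiv ℝ (kap e D x y) v) (c 0) := by
    rw [hc0]
    exact ((kap_contDiffAt F hD le_rfl hB hv hb.1 hvb).differentiableAt (by simp)).hasFDerivAt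
  have hcomp : HasDerivAt (fun s => kap e D x y (c s)) (fderiv ℝ (kap e D x y) v z) 0 :=
    hK.comp_hasDerivAt 0 hcd
  have hconst : (fun s => kap e D x y (c s)) = fun _ => logMap e y y := by
    funext s
    unfold kap
    rw [hce]
  rw [hconst] at hcomp
  have h0 : fderiv ℝ (kap e D x y) v z = 0 := hcomp.unique (hasDerivAt_const _ _)
  have h1 : w = ‖w‖ • z := by rw [hz, smul_smul, mul_inv_cancel₀ hwn.ne', one_smul]
  rw [h1, map_smul, h0, smul_zero]

/-- the dimension of the kernel is one less than the dimension of `Pl` at the other end -/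
theorem finrank_Ker_add_one (F : Facts e) {D : ℝ} (hD : 0 < D) (hB : InjGE e D)
    (hdiam : ∀ p q : M, dist p q ≤ D) {x y : M} {v : TangentSpace 𝓘(ℝ, E) x} (hv : ‖v‖ = 1)
    (hy : e x (D • v) = y) : finrank ℝ (Ker e D x v) + 1 = finrank ℝ (Pl e D x y) := by
  obtain ⟨b, hb, hvb⟩ := link_of_dir F hv hy
  have hxy : dist x y = D := dist_of_mem_Lk hD hB hb
  have hb' := link_neg F hD hB hdiam hb
  have hδ : 0 < D / 2 := by linarith
  have hδD : D / 2 < D := by linarith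
  have hfr : Module.finrank ℝ (TangentSpace 𝓘(ℝ, E) x) =
      Module.finrank ℝ (TangentSpace 𝓘(ℝ, E) y) := rfl
  set A := fderiv ℝ (kap e D x y) v with hA
  set B := fderiv ℝ (kap e (D - D / 2) x y) v with hBdef
  have hkv : ∀ w, w ∈ Ker e D x v ↔ (inner ℝ v w : ℝ) = 0 ∧ A w = 0 := by
    intro w
    rw [mem_Ker, ← fderiv_kap_eq_zero F hD hy]
    refine ⟨fun h => ⟨inner_of_dE_eq_zero F hD hv ((fderiv_kap_eq_zero F hD hy w).1 h), h⟩,
      fun h => h.2⟩
  have hinj : ∀ ζ, B ζ = 0 → ζ = 0 := fun ζ h0 => kap_inj F hδ hδD hB hv hb.1 hvb h0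
  -- image of the kernel
  have himg : (Ker e D x v).map B.toLinearMap = Pl e D x y ⊓ (ℝ ∙ b)ᗮ := by
    ext u
    rw [Submodule.mem_map, Submodule.mem_inf, Submodule.mem_orthogonal_singleton_iff_inner_right]
    constructor
    · rintro ⟨ζ, hζ, rfl⟩
      rw [hkv] at hζ
      refine ⟨?_, kap_orth F hδ hδD hB hv hb.1 hvb hζ.1⟩
      rw [← Submodule.orthogonal_orthogonal (Pl e D x y), Submodule.mem_orthogonal]
      intro τ hτ
      rw [real_inner_comm]
      exact tn_orth_ker F hδ hδD hB hb hb' hv hvb ((mem_Tn_iff F hD hB hdiam hxy).2 hτ) hζ.1 hζ.2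
    · rintro ⟨hu, hbu⟩
      have hall : ∀ u ∈ Pl e D x y, ∃ ζ, inner ℝ v ζ = (0 : ℝ) ∧ A ζ = 0 ∧
          u = (inner ℝ u b : ℝ) • b + B ζ := by
        intro u hu
        refine lin_alg hfr hv hb.1 (A := A) (B := B)
          (fun ζ η hζ hη => kap_sym F hδ hδD hB hv hb.1 hvb hζ hη)
          (fun ζ hζ => kap_orth F hδ hδD hB hv hb.1 hvb hζ)
          (fun ζ hζ => kap_orth_link F hD hB hv hb.1 hvb hb hζ)
          hinj (fun ζ hζ => ?_)
        induction hu using Submodule.span_induction with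
        | mem z hz => exact kap_orth_link F hD hB hv hb.1 hvb hz hζ
        | zero => exact inner_zero_left _
        | add p q _ _ hp hq => rw [inner_add_left, hp, hq, add_zero]
        | smul c p _ hp => rw [inner_smul_left, hp, mul_zero]
      obtain ⟨ζ, h1, h2, h3⟩ := hall u hu
      refine ⟨ζ, (hkv ζ).2 ⟨h1, h2⟩, ?_⟩
      rw [real_inner_comm, hbu, zero_smul, zero_add] at h3
      exact h3.symm
  have h1 : finrank ℝ ((Ker e D x v).map B.toLinearMap) = finrank ℝ (Ker e D x v) := by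
    have hi : Function.Injective B.toLinearMap := fun p q hpq => by
      have := hinj (p - q) (by rw [map_sub]; exact sub_eq_zero.2 hpq)
      exact sub_eq_zero.1 this
    exact (LinearEquiv.finrank_eq (Submodule.equivMapOfInjective B.toLinearMap hi _)).symm
  have h2 := Submodule.finrank_add_inf_finrank_orthogonal (K₁ := ℝ ∙ b) (K₂ := Pl e D x y) (by
    rw [Submodule.span_singleton_le_iff_mem]
    exact Lk_subset_Pl e D x y hb)
  have hb0 : b ≠ 0 := by
    rintro rfl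
    have := hb.1
    rw [norm_zero] at this
    exact zero_ne_one this
  rw [finrank_span_singleton hb0, inf_comm, ← himg, h1] at h2
  omega

/-- The kernel is contained in `Pl`, the dimensions of `Pl` at both ends agree. -/
theorem finrank_Pl_le (F : Facts e) {D : ℝ} (hD : 0 < D) (hB : InjGE e D)
    (hdiam : ∀ p q : M, dist p q ≤ D) {x y : M} (hxy : dist x y = D) :
    finrank ℝ (Pl e D y x) ≤ finrank ℝ (Pl e D x y) := by
  obtain ⟨v, hv⟩ := Lk_nonempty (e := e) F hD (x := y) (y := x) (by rw [dist_comm, hxy])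
  have h1 := finrank_Ker_add_one F hD hB hdiam hv.1 hv.2
  have h2 := Submodule.finrank_add_inf_finrank_orthogonal (K₁ := ℝ ∙ v) (K₂ := Pl e D y x) (by
    rw [Submodule.span_singleton_le_iff_mem]
    exact Lk_subset_Pl e D y x hv)
  have hv0 : v ≠ 0 := by
    rintro rfl
    have := hv.1
    rw [norm_zero] at this
    exact zero_ne_one this
  rw [finrank_span_singleton hv0] at h2
  have h3 : (ℝ ∙ v)ᗮ ⊓ Pl e D y x ≤ Ker e D x v := by
    rintro w ⟨hw1, hw2⟩
    exact Pl_inf_le_Ker F hD hB hdiam hv.1 hv.2 hw2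
      (Submodule.mem_orthogonal_singleton_iff_inner_right.1 hw1)
  have h4 := Submodule.finrank_mono h3
  omega

theorem finrank_Pl_comm (F : Facts e) {D : ℝ} (hD : 0 < D) (hB : InjGE e D)
    (hdiam : ∀ p q : M, dist p q ≤ D) {x y : M} (hxy : dist x y = D) :
    finrank ℝ (Pl e D y x) = finrank ℝ (Pl e D x y) :=
  le_antisymm (finrank_Pl_le F hD hB hdiam hxy)
    (finrank_Pl_le F hD hB hdiam (by rw [dist_comm, hxy]))

/-- **L2**: the kernel of the differential of `exp_x` at `D v` is `Pl ∩ v^⊥`. -/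
theorem mem_Ker_iff (F : Facts e) {D : ℝ} (hD : 0 < D) (hB : InjGE e D)
    (hdiam : ∀ p q : M, dist p q ≤ D) {x y : M} {v : TangentSpace 𝓘(ℝ, E) x} (hv : ‖v‖ = 1)
    (hy : e x (D • v) = y) {w : TangentSpace 𝓘(ℝ, E) x} :
    w ∈ Ker e D x v ↔ w ∈ Pl e D y x ∧ (inner ℝ v w : ℝ) = 0 := by
  have hvL : v ∈ Lk e D y x := ⟨hv, hy⟩
  have hyx : dist y x = D := dist_of_mem_Lk hD hB hvL
  have h1 := finrank_Ker_add_one F hD hB hdiam hv hy
  have h2 := Submodule.finrank_add_inf_finrank_orthogonal (K₁ := ℝ ∙ v) (K₂ := Pl e D y x) (by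
    rw [Submodule.span_singleton_le_iff_mem]
    exact Lk_subset_Pl e D y x hvL)
  have hv0 : v ≠ 0 := by
    rintro rfl
    rw [norm_zero] at hv
    exact zero_ne_one hv
  rw [finrank_span_singleton hv0, finrank_Pl_comm F hD hB hdiam (by rw [dist_comm, hyx])] at h2
  have h3 : (ℝ ∙ v)ᗮ ⊓ Pl e D y x ≤ Ker e D x v := by
    rintro w ⟨hw1, hw2⟩
    exact Pl_inf_le_Ker F hD hB hdiam hv hy hw2
      (Submodule.mem_orthogonal_singleton_iff_inner_right.1 hw1)
  have h4 : (ℝ ∙ v)ᗮ ⊓ Pl e D y x = Ker e D x v :=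
    Submodule.eq_of_le_of_finrank_eq h3 (by omega)
  rw [← h4, Submodule.mem_inf, Submodule.mem_orthogonal_singleton_iff_inner_right]
  exact and_comm

/-- **L2**: image of the differential of `exp_x` at `D v` on `v^⊥`. -/
theorem dE_mem_orthogonal (F : Facts e) {D : ℝ} (hD : 0 < D) (hB : InjGE e D)
    (hdiam : ∀ p q : M, dist p q ≤ D) {x y : M} {v : TangentSpace 𝓘(ℝ, E) x} (hv : ‖v‖ = 1)
    (hy : e x (D • v) = y) {w : TangentSpace 𝓘(ℝ, E) x} (hvw : (inner ℝ v w : ℝ) = 0)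
    {u : TangentSpace 𝓘(ℝ, E) y} (hu : u ∈ Pl e D x y) :
    ip (E := E) y u (dE e x (D • v : TangentSpace 𝓘(ℝ, E) x) w) = 0 := by
  obtain ⟨b, hb, hvb⟩ := link_of_dir F hv hy
  have h1 : (inner ℝ u (fderiv ℝ (kap e D x y) v w) : ℝ) = 0 := by
    induction hu using Submodule.span_induction with
    | mem z hz => exact kap_orth_link F hD hB hv hb.1 hvb hz hvw
    | zero => exact inner_zero_left _
    | add p q _ _ hp hq => rw [inner_add_left, hp, hq, add_zero]
    | smul c p _ hp => rw [inner_smul_left, hp, mul_zero]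
  have h2 : ip (E := E) y u (D • dE e x (D • v : TangentSpace 𝓘(ℝ, E) x) w) = 0 := by
    rw [← fderiv_kap F hy w]
    exact h1
  have h3 := asm_ip_smul_right (E := E) y D u (dE e x (D • v : TangentSpace 𝓘(ℝ, E) x) w)
  exact (mul_eq_zero.1 (h3.symm.trans h2)).resolve_left hD.ne'

/-- **L2**: every vector orthogonal to `Pl` is in the image of `v^⊥`. -/
theorem exists_dE_eq (F : Facts e) {D : ℝ} (hD : 0 < D) (hB : InjGE e D)
    (hdiam : ∀ p q : M, dist p q ≤ D) {x y : M} {v : TangentSpace 𝓘(ℝ, E) x} (hv : ‖v‖ = 1)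
    (hy : e x (D • v) = y) {τ : TangentSpace 𝓘(ℝ, E) y} (hτ : τ ∈ (Pl e D x y)ᗮ) :
    ∃ w : TangentSpace 𝓘(ℝ, E) x, (inner ℝ v w : ℝ) = 0 ∧
      dE e x (D • v : TangentSpace 𝓘(ℝ, E) x) w = τ := by
  subst hy
  set L : TangentSpace 𝓘(ℝ, E) x →ₗ[ℝ] TangentSpace 𝓘(ℝ, E) (e x (D • v)) :=
    (dEc e x (D • v)).toLinearMap with hL
  set V : Submodule ℝ (TangentSpace 𝓘(ℝ, E) x) := (ℝ ∙ v)ᗮ with hV
  have hv0 : v ≠ 0 := by
    rintro rfl
    rw [norm_zero] at hv
    exact zero_ne_one hv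
  have hle : V.map L ≤ (Pl e D x (e x (D • v)))ᗮ := by
    rintro _ ⟨w, hw, rfl⟩
    rw [Submodule.mem_orthogonal]
    intro u hu
    exact dE_mem_orthogonal F hD hB hdiam hv rfl
      (Submodule.mem_orthogonal_singleton_iff_inner_right.1 hw) hu
  have h1 : finrank ℝ (V.map L) + finrank ℝ (Ker e D x v) = finrank ℝ V := by
    have h2 := LinearMap.finrank_range_add_finrank_ker (L.domRestrict V)
    have h3 : LinearMap.range (L.domRestrict V) = V.map L := by
      rw [LinearMap.range_domRestrict]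
    have h4 : finrank ℝ (LinearMap.ker (L.domRestrict V)) = finrank ℝ (Ker e D x v) := by
      have h5 : (LinearMap.ker (L.domRestrict V)).map V.subtype = Ker e D x v := by
        ext w
        rw [Submodule.mem_map]
        constructor
        · rintro ⟨z, hz, rfl⟩
          exact hz
        · intro hw
          have h6 : (inner ℝ v w : ℝ) = 0 := inner_of_dE_eq_zero F hD hv hw
          exact ⟨⟨w, Submodule.mem_orthogonal_singleton_iff_inner_right.2 h6⟩, hw, rfl⟩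
      rw [← h5]
      exact (Submodule.finrank_map_subtype_eq V (LinearMap.ker (L.domRestrict V))).symm
    rw [h3, h4] at h2
    exact h2
  have h2 := finrank_Ker_add_one F hD hB hdiam hv rfl
  have h3 := Submodule.finrank_add_finrank_orthogonal (Pl e D x (e x (D • v)))
  have h4 := Submodule.finrank_add_finrank_orthogonal (ℝ ∙ v)
  rw [finrank_span_singleton hv0, ← hV] at h4
  have h5 : finrank ℝ (TangentSpace 𝓘(ℝ, E) (e x (D • v))) =
    finrank ℝ (TangentSpace 𝓘(ℝ, E) x) := rfl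
  have h6 : V.map L = (Pl e D x (e x (D • v)))ᗮ :=
    Submodule.eq_of_le_of_finrank_eq hle (by omega)
  rw [← h6] at hτ
  obtain ⟨w, hw, rfl⟩ := hτ
  exact ⟨w, Submodule.mem_orthogonal_singleton_iff_inner_right.1 hw, rfl⟩

/-- **L5**: different points give disjoint planes. -/
theorem Pl_inf_Pl (F : Facts e) {D : ℝ} (hD : 0 < D) (hB : InjGE e D)
    (hdiam : ∀ p q : M, dist p q ≤ D) {x y z : M} (hyx : dist y x = D) (hzx : dist z x = D)
    (hyz : y ≠ z) : Pl e D y x ⊓ Pl e D z x = ⊥ := by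
  rw [Submodule.eq_bot_iff]
  rintro w ⟨hw1, hw2⟩
  by_contra hw0
  have hwn : 0 < ‖w‖ := norm_pos_iff.2 hw0
  have hn : ‖‖w‖⁻¹ • w‖ = 1 := by rw [norm_smul, norm_inv, norm_norm, inv_mul_cancel₀ hwn.ne']
  have h1 := ((mem_Lk_iff F hD hB hdiam hyx).2 ⟨Submodule.smul_mem _ ‖w‖⁻¹ hw1, hn⟩).2
  have h2 := ((mem_Lk_iff F hD hB hdiam hzx).2 ⟨Submodule.smul_mem _ ‖w‖⁻¹ hw2, hn⟩).2
  exact hyz (h1.symm.trans h2)

end

end Vale.Agent.P231.H703
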