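import Vale.Agent.P231.H703.Mult

/-! P231 (L3, final form): the multiplicity `l` of the main statement, i.e. the least `l` with
`Blaschke.MultLE e l`, is the common dimension of all kernels, and all planes `Pl` have dimension
`l + 1`. -/

set_option maxSynthPendingDepth 3
set_option linter.unusedSectionVars false

open Bundle Manifold Set Filter Module
open scoped ContDiff Manifold Topology Matrix

namespace Vale.Agent.P231.H703

noncomputable section

open Vale.Agent.P234 Vale.Agent.P231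

variable {E : Type*} [NormedAddCommGroup E] [NormedSpace ℝ E]
  {M : Type*} [MetricSpace M] [ChartedSpace E M]
  [RiemannianBundle (fun x : M => TangentSpace 𝓘(ℝ, E) x)]
  {e : ∀ x : M, TangentSpace 𝓘(ℝ, E) x → M}
  [FiniteDimensional ℝ E] [IsManifold 𝓘(ℝ, E) ∞ M]
  [IsContMDiffRiemannianBundle 𝓘(ℝ, E) ∞ E (fun x : M => TangentSpace 𝓘(ℝ, E) x)]
  [CompactSpace M] [ConnectedSpace M] [IsRiemannianManifold 𝓘(ℝ, E) M]

/-- **L3, for the multiplicity of the main statement.** -/
theorem mult_of_isLeast (he : IsExp e) (F : Facts e) {D : ℝ} (hD : 0 < D) (hB : InjGE e D)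
    (hdiam : ∀ p q : M, dist p q ≤ D) (hDd : Metric.diam (univ : Set M) = D)
    {N : ℕ} (hN : finrank ℝ E = N + 1) {l : ℕ} (hl : IsLeast {k | Blaschke.MultLE e k} l) :
    l ≤ N ∧
      (∀ (x : M) (v : TangentSpace 𝓘(ℝ, E) x), ‖v‖ = 1 → finrank ℝ (Ker e D x v) = l) ∧
      (∀ x y : M, dist x y = D → finrank ℝ (Pl e D x y) = l + 1) := by
  obtain ⟨k, hkN, hk, hkP⟩ := exists_mult F hD hB hdiam hN
  obtain ⟨x₀⟩ : Nonempty M := inferInstance
  have hex : ∃ u : E, nm x₀ u = 1 := by
    have : Nontrivial (Eu E) := by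
      have : 0 < finrank ℝ (Eu E) := by rw [finrank_euclideanSpace, Fintype.card_fin, hN]; omega
      exact (finrank_pos_iff (R := ℝ)).1 this
    obtain ⟨a, ha⟩ := exists_norm_eq (Eu E) zero_le_one
    exact ⟨fr x₀ a, by rw [nm_fr, ha]⟩
  obtain ⟨u, hu⟩ := hex
  -- `k ≤ l`
  have h1 : k ≤ l := by
    have h2 := finrank_le_of_mult he hl.1 x₀ (D • u : E) (by
      rw [hDd]
      have := nm_smul (E := E) x₀ u D
      rw [this, hu, mul_one, abs_of_pos hD])
    have h3 : finrank ℝ (Ker e D x₀ (u : TangentSpace 𝓘(ℝ, E) x₀)) = k := hk x₀ u hu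
    have h4 : finrank ℝ (Ker e D x₀ (u : TangentSpace 𝓘(ℝ, E) x₀)) =
        finrank ℝ (LinearMap.ker (dEl e x₀ (D • u : E))) := rfl
    omega
  -- `MultLE e k`
  have h2 : Blaschke.MultLE e k := by
    intro x v hv w hw
    by_contra hcon
    push Not at hcon
    have hv1 : ‖v‖ = D := hv.trans hDd
    set v' : TangentSpace 𝓘(ℝ, E) x := D⁻¹ • v with hv'
    have hv'n : ‖v'‖ = 1 := by
      rw [hv', norm_smul, hv1, Real.norm_eq_abs, abs_of_pos (inv_pos.2 hD),
        inv_mul_cancel₀ hD.ne']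
    have hDv : D • v' = v := by rw [hv', smul_smul, mul_inv_cancel₀ hD.ne', one_smul]
    have h3 : ∀ i, w i ∈ Ker e D x v' := by
      intro i
      rw [mem_Ker, hDv]
      exact (mfderiv_line' he x v (w i)).symm.trans (hcon i)
    have h4 : LinearIndependent ℝ (fun i => (⟨w i, h3 i⟩ : Ker e D x v')) := by
      refine LinearIndependent.of_comp (Ker e D x v').subtype ?_
      exact hw
    have h5 := h4.fintype_card_le_finrank
    rw [Fintype.card_fin, hk x v' hv'n] at h5
    omega
  have h3 : l ≤ k := hl.2 h2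
  have h4 : l = k := le_antisymm h3 h1
  subst h4
  exact ⟨hkN, hk, hkP⟩

end

end Vale.Agent.P231.H703
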