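import Vale.Agent.P231.H703.Nullity
import Vale.Agent.P231.H703.Link

/-! P231 (L3): the nullity `dim ker d(exp_x)_{Dv}` of a Blaschke manifold is constant. -/

set_option maxSynthPendingDepth 3
set_option linter.unusedSectionVars false

open Bundle Manifold Set Filter Module
open scoped ContDiff Manifold Topology Matrix

namespace Vale.Agent.P231.H703

noncomputable section

open Vale.Agent.P234 Vale.Agent.P231

variable {E : Type*} [NormedAddCommGroup E] [NormedSpace ℝ E]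
  {M : Type*} [MetricSpace M] [ChartedSpace E M]
  [RiemannianBundle (fun x : M => TangentSpace 𝓘(ℝ, E) x)]
  {e : ∀ x : M, TangentSpace 𝓘(ℝ, E) x → M}
  [FiniteDimensional ℝ E]

/-! ### frames -/

/-- an orthonormal family of `N` vectors orthogonal to a unit vector is complete -/
theorem frame_complete {N : ℕ} (hN : finrank ℝ E = N + 1) {y : M} {ν : E} (hν : nm y ν = 1)
    {β : Fin N → E} (hon : ∀ i j, ip y (β i) (β j) = if i = j then 1 else 0)
    (hperp : ∀ i, ip y (β i) ν = 0) {w : E} (hw : ip y w ν = 0) :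
    w = ∑ i, ip y (β i) w • β i := by
  have hfd : FiniteDimensional ℝ (TangentSpace 𝓘(ℝ, E) y) := inferInstanceAs (FiniteDimensional ℝ E)
  let f : Fin (N + 1) → TangentSpace 𝓘(ℝ, E) y := Fin.cons (Jac.up y ν) (fun i => Jac.up y (β i))
  have hf : Orthonormal ℝ f := by
    rw [orthonormal_iff_ite]
    intro i j
    refine Fin.cases ?_ (fun i => ?_) i
    · refine Fin.cases ?_ (fun j => ?_) j
      · show ip y ν ν = _
        rw [asm_ip_self, hν]
        norm_num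
      · show ip y ν (β j) = _
        rw [asm_ip_comm, hperp, if_neg (Fin.succ_ne_zero j).symm]
    · refine Fin.cases ?_ (fun j => ?_) j
      · show ip y (β i) ν = _
        rw [hperp, if_neg (Fin.succ_ne_zero i)]
      · show ip y (β i) (β j) = _
        rw [hon]
        simp only [Fin.succ_inj]
  have hcard : Fintype.card (Fin (N + 1)) = finrank ℝ (TangentSpace 𝓘(ℝ, E) y) := by
    rw [Fintype.card_fin]
    exact hN.symm
  have hspan : ⊤ ≤ Submodule.span ℝ (Set.range f) := by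
    rw [(hf.linearIndependent.span_eq_top_of_card_eq_finrank' hcard)]
  let B := OrthonormalBasis.mk hf hspan
  have h1 := B.sum_repr' (Jac.up y w)
  have hB : ∀ i, B i = f i := fun i => by rw [OrthonormalBasis.coe_mk]
  simp only [hB] at h1
  rw [Fin.sum_univ_succ] at h1
  have h2 : (inner ℝ (f 0) (Jac.up y w) : ℝ) = 0 := by
    show ip y ν w = 0
    rw [asm_ip_comm, hw]
  rw [h2, zero_smul, zero_add] at h1
  exact h1.symm

/-- the matrix of a Jacobi map in given frames -/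
def amat (e : ∀ x : M, TangentSpace 𝓘(ℝ, E) x → M) {N : ℕ} (x : M) (u : E) (s t : ℝ)
    (p q : Fin N → E) : Matrix (Fin N) (Fin N) ℝ :=
  Matrix.of fun i j => ip (gam e x u t) (p i) (jf e x u s t (q j))

theorem amat_eq {N : ℕ} {x : M} {u : E} {b : ℝ → Fin N → E}
    {A : ℝ → ℝ → Matrix (Fin N) (Fin N) ℝ}
    (hon : ∀ t i j, ip (gam e x u t) (b t i) (b t j) = if i = j then 1 else 0)
    (hcol : ∀ s t j, jf e x u s t (b s j) = ∑ i, A s t i j • b t i) (s t : ℝ) :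
    amat e x u s t (b t) (b s) = A s t := by
  ext i j
  unfold amat
  rw [Matrix.of_apply, hcol, asm_ip_sum_right]
  simp_rw [asm_ip_smul_right, hon]
  simp

variable [IsManifold 𝓘(ℝ, E) ∞ M]
  [IsContMDiffRiemannianBundle 𝓘(ℝ, E) ∞ E (fun x : M => TangentSpace 𝓘(ℝ, E) x)]

/-- change of frames -/
theorem amat_change {N : ℕ} {x : M} {u : E} {b : ℝ → Fin N → E}
    {A : ℝ → ℝ → Matrix (Fin N) (Fin N) ℝ}
    (hon : ∀ t i j, ip (gam e x u t) (b t i) (b t j) = if i = j then 1 else 0)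
    (hcol : ∀ s t j, jf e x u s t (b s j) = ∑ i, A s t i j • b t i) (s t : ℝ)
    {p q : Fin N → E} {O O' : Matrix (Fin N) (Fin N) ℝ}
    (hp : ∀ j, p j = ∑ i, O i j • b t i) (hq : ∀ j, q j = ∑ i, O' i j • b s i) :
    amat e x u s t p q = O.transpose * A s t * O' := by
  ext i j
  unfold amat
  rw [Matrix.of_apply, hp, hq, asm_jf_sum]
  have h1 : ∀ k, jf e x u s t (O' k j • b s k) = ∑ m, (A s t m k * O' k j) • b t m := by
    intro k
    rw [asm_jf_smul, hcol, Finset.smul_sum]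
    refine Finset.sum_congr rfl fun m _ => ?_
    rw [smul_smul, mul_comm]
  simp_rw [h1]
  rw [asm_ip_sum_right]
  simp_rw [asm_ip_sum_right, asm_ip_sum_left, asm_ip_smul_left, asm_ip_smul_right, hon]
  rw [Matrix.mul_apply]
  refine Finset.sum_congr rfl fun k _ => ?_
  rw [Matrix.mul_apply, Finset.sum_mul]
  refine Finset.sum_congr rfl fun m _ => ?_
  simp only [mul_ite, mul_one, mul_zero, Matrix.transpose_apply]
  rw [Finset.sum_eq_single m]
  · rw [if_pos rfl]; ring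
  · intro a _ ha
    rw [if_neg ha]
  · intro h
    exact absurd (Finset.mem_univ m) h

/-! ### continuity -/

theorem tendsto_smul_tb {z : ℕ → M} {v : ℕ → E} {z₀ : M} {v₀ : E}
    (h : Tendsto (fun k => tb (z k) (v k)) atTop (𝓝 (tb z₀ v₀))) (c : ℝ) :
    Tendsto (fun k => tb (z k) (c • v k)) atTop (𝓝 (tb z₀ (c • v₀))) :=
  TendstoTB.smul (Jac.toTB h) (c := fun _ => c) tendsto_const_nhds

variable [CompactSpace M] [ConnectedSpace M] [IsRiemannianManifold 𝓘(ℝ, E) M]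

theorem tendsto_flow (F : Facts e) {z : ℕ → M} {v : ℕ → E} {z₀ : M} {v₀ : E}
    (h : Tendsto (fun k => tb (z k) (v k)) atTop (𝓝 (tb z₀ v₀))) (s : ℝ) :
    Tendsto (fun k => tb (gam e (z k) (v k) s) (vel e (z k) (v k) s)) atTop
      (𝓝 (tb (gam e z₀ v₀ s) (vel e z₀ v₀ s))) := by
  have h1 := ((contMDiff_flow F).continuous.tendsto (s, tb z₀ v₀))
  exact h1.comp (tendsto_const_nhds.prodMk_nhds h)

theorem tendsto_jf (F : Facts e) {z : ℕ → M} {v : ℕ → E} {z₀ : M} {v₀ : E}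
    (h : Tendsto (fun k => tb (z k) (v k)) atTop (𝓝 (tb z₀ v₀))) (s t : ℝ) {w : ℕ → E} {w₀ : E}
    (hw : Tendsto (fun k => tb (gam e (z k) (v k) s) (w k)) atTop (𝓝 (tb (gam e z₀ v₀ s) w₀))) :
    Tendsto (fun k => tb (gam e (z k) (v k) t) (jf e (z k) (v k) s t (w k))) atTop
      (𝓝 (tb (gam e z₀ v₀ t) (jf e z₀ v₀ s t w₀))) := by
  have h1 := tendsto_smul_tb (tendsto_flow F h s) (t - s)
  have h2 := tendsto_smul_tb (Jac.tendstoTB_dE' F.isExp h1 hw) (t - s)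
  have h3 : ∀ (x : M) (u a : E), tb (e (gam e x u s) ((t - s) • vel e x u s))
      ((t - s) • dE e (gam e x u s) ((t - s) • vel e x u s) a) =
      tb (gam e x u t) (jf e x u s t a) := by
    intro x u a
    refine tb_congr ?_ rfl
    have h4 := gam_flow F x u s (t - s)
    rw [add_sub_cancel] at h4
    exact h4
  rw [h3] at h2
  refine h2.congr fun k => ?_
  rw [h3]

theorem tendsto_amat (F : Facts e) {N : ℕ} {z : ℕ → M} {v : ℕ → E} {z₀ : M} {v₀ : E}
    (h : Tendsto (fun k => tb (z k) (v k)) atTop (𝓝 (tb z₀ v₀))) (s t : ℝ)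
    {p q : ℕ → Fin N → E} {p₀ q₀ : Fin N → E}
    (hp : ∀ j, Tendsto (fun k => tb (gam e (z k) (v k) t) (p k j)) atTop
      (𝓝 (tb (gam e z₀ v₀ t) (p₀ j))))
    (hq : ∀ j, Tendsto (fun k => tb (gam e (z k) (v k) s) (q k j)) atTop
      (𝓝 (tb (gam e z₀ v₀ s) (q₀ j)))) :
    Tendsto (fun k => amat e (z k) (v k) s t (p k) (q k)) atTop
      (𝓝 (amat e z₀ v₀ s t p₀ q₀)) := by
  refine tendsto_pi_nhds.2 fun i => tendsto_pi_nhds.2 fun j => ?_
  exact Jac.tendsto_ip (hp i) (tendsto_jf F h s t (hq j))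

/-- limits of frames -/
theorem exists_frame_limit (F : Facts e) {N : ℕ} {z : ℕ → M} {v : ℕ → E} {z₀ : M} {v₀ : E}
    (h : Tendsto (fun k => tb (z k) (v k)) atTop (𝓝 (tb z₀ v₀))) (t : ℝ)
    {p : ℕ → Fin N → E}
    (hon : ∀ k i j, ip (gam e (z k) (v k) t) (p k i) (p k j) = if i = j then 1 else 0)
    (hperp : ∀ k i, ip (gam e (z k) (v k) t) (p k i) (vel e (z k) (v k) t) = 0) :
    ∃ (φ : ℕ → ℕ) (β : Fin N → E), StrictMono φ ∧
      (∀ j, Tendsto (fun k => tb (gam e (z (φ k)) (v (φ k)) t) (p (φ k) j)) atTop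
        (𝓝 (tb (gam e z₀ v₀ t) (β j)))) ∧
      (∀ i j, ip (gam e z₀ v₀ t) (β i) (β j) = if i = j then 1 else 0) ∧
      (∀ i, ip (gam e z₀ v₀ t) (β i) (vel e z₀ v₀ t) = 0) := by
  obtain ⟨y, β, φ, hφ, hy, hβ⟩ := exists_tendstoTB_fin (fun k => gam e (z k) (v k) t)
    (fun k (j : Fin N) => Jac.up (gam e (z k) (v k) t) (p k j)) 1 (fun k j => by
      have h1 := hon k j j
      rw [asm_ip_self, if_pos rfl] at h1
      have h2 : nm (gam e (z k) (v k) t) (p k j) ≤ 1 := by nlinarith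
      exact h2)
  have hfl := tendsto_flow F h t
  have hfl' := hfl.comp hφ.tendsto_atTop
  have hb : Tendsto (fun k => gam e (z (φ k)) (v (φ k)) t) atTop (𝓝 (gam e z₀ v₀ t)) :=
    (TendstoTB.base (Jac.toTB hfl)).comp hφ.tendsto_atTop
  have hyy : y = gam e z₀ v₀ t := tendsto_nhds_unique hy hb
  subst hyy
  have hβ' : ∀ j, Tendsto (fun k => tb (gam e (z (φ k)) (v (φ k)) t) (p (φ k) j)) atTop
        (𝓝 (tb (gam e z₀ v₀ t) (β j))) := hβ
  refine ⟨φ, β, hφ, hβ', fun i j => ?_, fun i => ?_⟩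
  · have h1 := Jac.tendsto_ip (hβ' i) (hβ' j)
    simp only [hon] at h1
    exact tendsto_nhds_unique h1 tendsto_const_nhds
  · have h1 := Jac.tendsto_ip (hβ' i) hfl'
    have h2 : (fun k => ip (gam e (z (φ k)) (v (φ k)) t) (p (φ k) i)
        (vel e (z (φ k)) (v (φ k)) t)) = fun _ => 0 := by
      funext k
      exact hperp _ _
    rw [h2] at h1
    exact tendsto_nhds_unique h1 tendsto_const_nhds

/-! ### the nullity -/

/-- the nullity of the matrix of the Jacobi map is the dimension of the kernel -/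
theorem nul_eq (F : Facts e) {D : ℝ} (hD : 0 < D) {N : ℕ} (hN : finrank ℝ E = N + 1)
    {x : M} {u : E} (hu : nm x u = 1) {b : ℝ → Fin N → E}
    {A : ℝ → ℝ → Matrix (Fin N) (Fin N) ℝ}
    (hon : ∀ t i j, ip (gam e x u t) (b t i) (b t j) = if i = j then 1 else 0)
    (hperp : ∀ t i, ip (gam e x u t) (b t i) (vel e x u t) = 0)
    (hcol : ∀ s t j, jf e x u s t (b s j) = ∑ i, A s t i j • b t i) :
    nul A D 0 = finrank ℝ (Ker e D x (u : TangentSpace 𝓘(ℝ, E) x)) := by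
  have hu0 : nm (gam e x u 0) (vel e x u 0) = 1 := by
    rw [gam_zero F.isExp, vel_zero F.isExp, hu]
  -- the linear map
  let f : (Fin N → ℝ) →ₗ[ℝ] TangentSpace 𝓘(ℝ, E) x :=
    { toFun := fun c => Jac.up x (∑ j, c j • b 0 j)
      map_add' := fun c d => by
        show (∑ j, (c + d) j • b 0 j : E) = (∑ j, c j • b 0 j) + ∑ j, d j • b 0 j
        rw [← Finset.sum_add_distrib]
        exact Finset.sum_congr rfl fun j _ => add_smul _ _ _
      map_smul' := fun r c => by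
        show (∑ j, (r • c) j • b 0 j : E) = r • ∑ j, c j • b 0 j
        rw [Finset.smul_sum]
        exact Finset.sum_congr rfl fun j _ => by rw [Pi.smul_apply, smul_assoc] }
  have hf : ∀ c, (f c : E) = ∑ j, c j • b 0 j := fun c => rfl
  have hjf : ∀ c : Fin N → ℝ, jf e x u 0 D (∑ j, c j • b 0 j) =
      ∑ i, (A 0 D *ᵥ c) i • b D i := by
    intro c
    rw [asm_jf_sum]
    have h1 : ∀ j, jf e x u 0 D (c j • b 0 j) = ∑ i, (A 0 D i j * c j) • b D i := by
      intro j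
      rw [asm_jf_smul, hcol, Finset.smul_sum]
      refine Finset.sum_congr rfl fun i _ => ?_
      rw [smul_smul, mul_comm]
    simp_rw [h1]
    rw [Finset.sum_comm]
    refine Finset.sum_congr rfl fun i _ => ?_
    rw [← Finset.sum_smul]
    rfl
  have hlin : ∀ t (c : Fin N → ℝ), ∑ j, c j • b t j = 0 → c = 0 := by
    intro t c hc
    funext i
    have h5 : ip (gam e x u t) (b t i) (∑ j, c j • b t j) = 0 := by
      rw [hc, asm_ip_zero_right]
    rw [asm_ip_sum_right] at h5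
    simp_rw [asm_ip_smul_right, hon] at h5
    simpa only [mul_ite, mul_one, mul_zero, Finset.sum_ite_eq, Finset.mem_univ, ↓reduceIte,
      Pi.zero_apply] using h5
  have hinj : Function.Injective f := by
    intro c d hcd
    have h1 : ∑ j, (c - d) j • b 0 j = 0 := by
      have h2 : (∑ j, c j • b 0 j : E) = ∑ j, d j • b 0 j := hcd
      have h3 : (∑ j, c j • b 0 j : E) - ∑ j, d j • b 0 j = 0 := sub_eq_zero.2 h2
      rw [← Finset.sum_sub_distrib] at h3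
      rw [← h3]
      exact Finset.sum_congr rfl fun j _ => by rw [Pi.sub_apply, sub_smul]
    exact sub_eq_zero.1 (hlin 0 _ h1)
  have hD1 : (0 : ℝ) + D = D := zero_add D
  have hkey : ∀ w : E, dE e x (D • u) w = 0 ↔ jf e x u 0 D w = 0 := by
    intro w
    rw [jf_zero F]
    exact ⟨fun h => by rw [h, smul_zero], fun h => (smul_eq_zero.1 h).resolve_left hD.ne'⟩
  have hmap : (LinearMap.ker (A 0 (0 + D)).mulVecLin).map f =
      Ker e D x (u : TangentSpace 𝓘(ℝ, E) x) := by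
    ext w
    rw [Submodule.mem_map]
    constructor
    · rintro ⟨c, hc, rfl⟩
      rw [hD1] at hc
      have hc' : A 0 D *ᵥ c = 0 := hc
      refine (hkey _).2 ?_
      show jf e x u 0 D (∑ j, c j • b 0 j) = 0
      rw [hjf, hc']
      simp
    · intro hw
      have hall : ∀ w : E, dE e x (D • u) w = 0 → ∃ c : Fin N → ℝ, A 0 D *ᵥ c = 0 ∧
          (∑ j, c j • b 0 j : E) = w := by
        intro w hw'
        have h1 : ip (gam e x u 0) w (vel e x u 0) = 0 := by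
          rw [gam_zero F.isExp, vel_zero F.isExp]
          exact ip_of_dE_eq_zero F hD hu hw'
        have h2 := frame_complete hN hu0 (hon 0) (hperp 0) h1
        refine ⟨fun j => ip (gam e x u 0) (b 0 j) w, ?_, h2.symm⟩
        have h3 := (hkey w).1 hw'
        have h4 : jf e x u 0 D (∑ j, ip (gam e x u 0) (b 0 j) w • b 0 j) = 0 := by
          rw [← h2]; exact h3
        rw [hjf] at h4
        exact hlin D _ h4
      obtain ⟨c, hc, hcw⟩ := hall w hw
      refine ⟨c, ?_, hcw⟩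
      rw [hD1]
      exact hc
  rw [nul, ← hmap]
  exact LinearEquiv.finrank_eq (Submodule.equivMapOfInjective f hinj _)

/-- the matrix `Hc` in given frames -/
def hmat (e : ∀ x : M, TangentSpace 𝓘(ℝ, E) x → M) {N : ℕ} (x : M) (u : E) (a s t : ℝ)
    (p q r : Fin N → E) : Matrix (Fin N) (Fin N) ℝ :=
  (amat e x u a t r p)⁻¹ * amat e x u s t r q * ((amat e x u a s q p)⁻¹).transpose

theorem tendsto_inv_mat {N : ℕ} {X : ℕ → Matrix (Fin N) (Fin N) ℝ}
    {Y : Matrix (Fin N) (Fin N) ℝ} (h : Tendsto X atTop (𝓝 Y)) (hu : IsUnit Y) :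
    Tendsto (fun k => (X k)⁻¹) atTop (𝓝 Y⁻¹) :=
  (MatCalc.continuousAt_inv (X := fun Z : Matrix (Fin N) (Fin N) ℝ => Z) continuousAt_id
    hu).tendsto.comp h

/-- the form `Hc` is continuous in suitable frames -/
theorem exists_limit (F : Facts e) {D : ℝ} (hD : 0 < D) (hB : InjGE e D)
    (hcl : ∀ (x : M) (v : E), nm x v = 2 * D → e x v = x)
    {N : ℕ} (hN : finrank ℝ E = N + 1) {z : ℕ → M} {v : ℕ → E} {z₀ : M} {v₀ : E}
    (h : Tendsto (fun k => tb (z k) (v k)) atTop (𝓝 (tb z₀ v₀)))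
    (hv : ∀ k, nm (z k) (v k) = 1) :
    ∃ (φ : ℕ → ℕ) (A₀ : ℝ → ℝ → Matrix (Fin N) (Fin N) ℝ)
      (A : ℕ → ℝ → ℝ → Matrix (Fin N) (Fin N) ℝ) (O : Matrix (Fin N) (Fin N) ℝ),
      StrictMono φ ∧ JData D A₀ ∧ (∀ k, JData D (A k)) ∧
      nul A₀ D 0 = finrank ℝ (Ker e D z₀ (v₀ : TangentSpace 𝓘(ℝ, E) z₀)) ∧
      (∀ k, nul (A k) D 0 = finrank ℝ (Ker e D (z (φ k))
        (v (φ k) : TangentSpace 𝓘(ℝ, E) (z (φ k))))) ∧ IsUnit O ∧
      Tendsto (fun k => Hc (A k) (D / 2) 0 (5 * D / 4)) atTop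
        (𝓝 (O.transpose * Hc A₀ (D / 2) 0 (5 * D / 4) * O)) := by
  have hv₀ : nm z₀ v₀ = 1 := by
    have h1 := Jac.tendsto_nm h
    simp only [hv] at h1
    exact (tendsto_nhds_unique h1 tendsto_const_nhds)
  obtain ⟨b₀, A₀, hJ₀, hon₀, hperp₀, hcol₀⟩ := exists_jdata F hD hB hcl hN z₀ v₀ hv₀
  choose b A hJ hon hperp hcol using fun k => exists_jdata F hD hB hcl hN (z k) (v k) (hv k)
  -- limits of the frames at the three times
  obtain ⟨φ₁, β₁, hφ₁, hl₁, ho₁, hp₁⟩ := exists_frame_limit F h (D / 2)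
    (p := fun k => b k (D / 2)) (fun k => hon k (D / 2)) (fun k => hperp k (D / 2))
  have h' := h.comp hφ₁.tendsto_atTop
  obtain ⟨φ₂, β₂, hφ₂, hl₂, ho₂, hp₂⟩ := exists_frame_limit F (z := fun k => z (φ₁ k))
    (v := fun k => v (φ₁ k)) h' 0
    (p := fun k => b (φ₁ k) 0) (fun k => hon _ 0) (fun k => hperp _ 0)
  have h'' := h'.comp hφ₂.tendsto_atTop
  obtain ⟨φ₃, β₃, hφ₃, hl₃, ho₃, hp₃⟩ := exists_frame_limit F (z := fun k => z (φ₁ (φ₂ k)))
    (v := fun k => v (φ₁ (φ₂ k))) h'' (5 * D / 4)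
    (p := fun k => b (φ₁ (φ₂ k)) (5 * D / 4)) (fun k => hon _ _) (fun k => hperp _ _)
  have h''' := h''.comp hφ₃.tendsto_atTop
  set φ : ℕ → ℕ := fun k => φ₁ (φ₂ (φ₃ k)) with hφ
  have hφm : StrictMono φ := hφ₁.comp (hφ₂.comp hφ₃)
  have L₁ : ∀ j, Tendsto (fun k => tb (gam e (z (φ k)) (v (φ k)) (D / 2)) (b (φ k) (D / 2) j))
      atTop (𝓝 (tb (gam e z₀ v₀ (D / 2)) (β₁ j))) := fun j =>
    (hl₁ j).comp (hφ₂.comp hφ₃).tendsto_atTop
  have L₂ : ∀ j, Tendsto (fun k => tb (gam e (z (φ k)) (v (φ k)) 0) (b (φ k) 0 j))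
      atTop (𝓝 (tb (gam e z₀ v₀ 0) (β₂ j))) := fun j =>
    (hl₂ j).comp hφ₃.tendsto_atTop
  have L₃ : ∀ j, Tendsto (fun k => tb (gam e (z (φ k)) (v (φ k)) (5 * D / 4))
      (b (φ k) (5 * D / 4) j)) atTop (𝓝 (tb (gam e z₀ v₀ (5 * D / 4)) (β₃ j))) := hl₃
  have hL : Tendsto (fun k => tb (z (φ k)) (v (φ k))) atTop (𝓝 (tb z₀ v₀)) := h'''
  -- matrices of the frames
  have hnv : ∀ t, nm (gam e z₀ v₀ t) (vel e z₀ v₀ t) = 1 := fun t => (nm_vel F z₀ v₀ t).trans hv₀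
  set O : ℝ → (Fin N → E) → Matrix (Fin N) (Fin N) ℝ := fun t β =>
    Matrix.of fun i j => ip (gam e z₀ v₀ t) (b₀ t i) (β j) with hO
  have hexp : ∀ t (β : Fin N → E), (∀ i, ip (gam e z₀ v₀ t) (β i) (vel e z₀ v₀ t) = 0) →
      ∀ j, β j = ∑ i, O t β i j • b₀ t i := fun t β hβ j =>
    frame_complete hN (hnv t) (hon₀ t) (hperp₀ t) (hβ j)
  have hOO : ∀ t (β : Fin N → E), (∀ i, ip (gam e z₀ v₀ t) (β i) (vel e z₀ v₀ t) = 0) →
      (∀ i j, ip (gam e z₀ v₀ t) (β i) (β j) = if i = j then 1 else 0) →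
      (O t β).transpose * O t β = 1 := by
    intro t β hβ hβo
    ext i j
    rw [Matrix.mul_apply, Matrix.one_apply, ← hβo i j]
    conv_rhs => rw [hexp t β hβ j]
    rw [asm_ip_sum_right]
    refine Finset.sum_congr rfl fun k _ => ?_
    rw [asm_ip_smul_right, Matrix.transpose_apply, asm_ip_comm _ (β i)]
    simp only [hO, Matrix.of_apply]
    ring
  set O₁ := O (D / 2) β₁ with hO₁
  set O₂ := O 0 β₂ with hO₂
  set O₃ := O (5 * D / 4) β₃ with hO₃
  have e₁ : O₁.transpose * O₁ = 1 := hOO _ _ hp₁ ho₁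
  have e₂ : O₂.transpose * O₂ = 1 := hOO _ _ hp₂ ho₂
  have e₃ : O₃.transpose * O₃ = 1 := hOO _ _ hp₃ ho₃
  have u₁ : IsUnit O₁ := ⟨⟨_, _, mul_eq_one_comm.1 e₁, e₁⟩, rfl⟩
  have u₂ : IsUnit O₂ := ⟨⟨_, _, mul_eq_one_comm.1 e₂, e₂⟩, rfl⟩
  have u₃ : IsUnit O₃ := ⟨⟨_, _, mul_eq_one_comm.1 e₃, e₃⟩, rfl⟩
  have c₁ : amat e z₀ v₀ (D / 2) (5 * D / 4) β₃ β₁ =
      O₃.transpose * A₀ (D / 2) (5 * D / 4) * O₁ :=
    amat_change hon₀ hcol₀ _ _ (hexp _ _ hp₃) (hexp _ _ hp₁)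
  have c₂ : amat e z₀ v₀ 0 (5 * D / 4) β₃ β₂ = O₃.transpose * A₀ 0 (5 * D / 4) * O₂ :=
    amat_change hon₀ hcol₀ _ _ (hexp _ _ hp₃) (hexp _ _ hp₂)
  have c₃ : amat e z₀ v₀ (D / 2) 0 β₂ β₁ = O₂.transpose * A₀ (D / 2) 0 * O₁ :=
    amat_change hon₀ hcol₀ _ _ (hexp _ _ hp₂) (hexp _ _ hp₁)
  have hu1 : IsUnit (A₀ (D / 2) (5 * D / 4)) := hJ₀.unit _ _ (by linarith) (by linarith)
  have hu2 : IsUnit (A₀ (D / 2) 0) := hJ₀.unit_symm (hJ₀.unit _ _ (by linarith) (by linarith))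
  refine ⟨φ, A₀, fun k => A (φ k), O₁, hφm, hJ₀, fun k => hJ _,
    nul_eq F hD hN hv₀ hon₀ hperp₀ hcol₀,
    fun k => nul_eq F hD hN (hv _) (hon _) (hperp _) (hcol _), u₁, ?_⟩
  have hT : Tendsto (fun k => hmat e (z (φ k)) (v (φ k)) (D / 2) 0 (5 * D / 4)
      (b (φ k) (D / 2)) (b (φ k) 0) (b (φ k) (5 * D / 4))) atTop
      (𝓝 (hmat e z₀ v₀ (D / 2) 0 (5 * D / 4) β₁ β₂ β₃)) := by
    unfold hmat
    refine Tendsto.mul (Tendsto.mul ?_ ?_) ?_
    · refine tendsto_inv_mat (tendsto_amat F hL _ _ L₃ L₁) ?_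
      rw [c₁]
      exact (((Matrix.isUnit_transpose _).2 u₃).mul hu1).mul u₁
    · exact tendsto_amat F hL _ _ L₃ L₂
    · refine ((continuous_id.matrix_transpose).tendsto _).comp
        (tendsto_inv_mat (tendsto_amat F hL _ _ L₂ L₁) ?_)
      rw [c₃]
      exact (((Matrix.isUnit_transpose _).2 u₂).mul hu2).mul u₁
  have hlim : hmat e z₀ v₀ (D / 2) 0 (5 * D / 4) β₁ β₂ β₃ =
      O₁.transpose * Hc A₀ (D / 2) 0 (5 * D / 4) * O₁ := by
    have i₁ : O₁⁻¹ = O₁.transpose := Matrix.inv_eq_left_inv e₁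
    have i₂ : O₂⁻¹ = O₂.transpose := Matrix.inv_eq_left_inv e₂
    have i₃ : (O₃.transpose)⁻¹ = O₃ := Matrix.inv_eq_right_inv e₃
    have i₂' : (O₂.transpose)⁻¹ = O₂ := Matrix.inv_eq_right_inv e₂
    have f₃ : O₃ * O₃.transpose = 1 := mul_eq_one_comm.1 e₃
    have f₂ : O₂ * O₂.transpose = 1 := mul_eq_one_comm.1 e₂
    unfold hmat Hc
    rw [c₁, c₂, c₃]
    simp only [Matrix.mul_inv_rev, i₁, i₃, i₂', Matrix.transpose_mul, Matrix.transpose_transpose]
    calc O₁.transpose * ((A₀ (D / 2) (5 * D / 4))⁻¹ * O₃) *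
          (O₃.transpose * A₀ 0 (5 * D / 4) * O₂) *
          (O₂.transpose * ((A₀ (D / 2) 0)⁻¹).transpose * O₁)
        = O₁.transpose * ((A₀ (D / 2) (5 * D / 4))⁻¹ * (O₃ *
          O₃.transpose) * A₀ 0 (5 * D / 4) * (O₂ *
          O₂.transpose) * ((A₀ (D / 2) 0)⁻¹).transpose) * O₁ := by
          simp only [Matrix.mul_assoc]
      _ = _ := by rw [f₃, f₂, Matrix.mul_one, Matrix.mul_one]
  rw [← hlim]
  refine hT.congr fun k => ?_
  unfold hmat Hc
  rw [amat_eq (hon _) (hcol _), amat_eq (hon _) (hcol _), amat_eq (hon _) (hcol _)]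

end

end Vale.Agent.P231.H703
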