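import Mathlib

/-! P231: the index of a path of nonsingular symmetric matrices is constant. -/

open Matrix Set Filter Topology Module

set_option linter.unusedSectionVars false

namespace Vale.Agent.P231.H703

noncomputable section

variable {ι : Type*} [Fintype ι] [DecidableEq ι]

/-- The quadratic form of `H` is positive definite on `W`. -/
def PosOn (H : Matrix ι ι ℝ) (W : Submodule ℝ (ι → ℝ)) : Prop :=
  ∀ x ∈ W, x ≠ 0 → 0 < x ⬝ᵥ (H *ᵥ x)

theorem PosOn.mono {H : Matrix ι ι ℝ} {W W' : Submodule ℝ (ι → ℝ)} (h : PosOn H W)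
    (hle : W' ≤ W) : PosOn H W' := fun x hx hx0 => h x (hle hx) hx0

/-- positive and negative subspaces meet in zero -/
theorem PosOn.finrank_add_le {H : Matrix ι ι ℝ} {W V : Submodule ℝ (ι → ℝ)} (hW : PosOn H W)
    (hV : PosOn (-H) V) : finrank ℝ W + finrank ℝ V ≤ Fintype.card ι := by
  have hd : Disjoint W V := by
    rw [Submodule.disjoint_def]
    intro x hxW hxV
    by_contra hx
    have h1 := hW x hxW hx
    have h2 := hV x hxV hx
    rw [neg_mulVec, dotProduct_neg] at h2
    linarith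
  have h := Submodule.finrank_add_finrank_le_of_disjoint hd
  rwa [finrank_fintype_fun_eq_card] at h

/-- a positive subspace contains positive subspaces of all smaller dimensions -/
theorem exists_sub_of_le {W : Submodule ℝ (ι → ℝ)} {k : ℕ} (hk : k ≤ finrank ℝ W) :
    ∃ W' : Submodule ℝ (ι → ℝ), W' ≤ W ∧ finrank ℝ W' = k := by
  obtain ⟨f, hf⟩ := exists_linearIndependent_of_le_finrank hk
  have hg : LinearIndependent ℝ (fun i => (f i : ι → ℝ)) :=
    hf.map' W.subtype (Submodule.ker_subtype _)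
  refine ⟨Submodule.span ℝ (Set.range fun i => (f i : ι → ℝ)), ?_, ?_⟩
  · rw [Submodule.span_le]
    rintro _ ⟨i, rfl⟩
    exact (f i).2
  · rw [finrank_span_eq_card hg, Fintype.card_fin]

/-- spectral decomposition of a nonsingular symmetric matrix -/
theorem exists_pos_neg {H : Matrix ι ι ℝ} (hH : Hᵀ = H) (hu : IsUnit H) :
    ∃ W V : Submodule ℝ (ι → ℝ), PosOn H W ∧ PosOn (-H) V ∧
      finrank ℝ W + finrank ℝ V = Fintype.card ι := by
  classical
  have hHh : H.IsHermitian := by
    rw [Matrix.IsHermitian, conjTranspose_eq_transpose_of_trivial, hH]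
  set b := hHh.eigenvectorBasis with hb
  set lam := hHh.eigenvalues with hlam
  let v : ι → (ι → ℝ) := fun i => (b i).ofLp
  have hev : ∀ i, H *ᵥ v i = lam i • v i := fun i => hHh.mulVec_eigenvectorBasis i
  have hon : ∀ i j, v i ⬝ᵥ v j = if i = j then 1 else 0 := by
    intro i j
    have h1 := orthonormal_iff_ite.1 b.orthonormal j i
    rw [EuclideanSpace.inner_eq_star_dotProduct] at h1
    simp only [star_trivial] at h1
    show (b i).ofLp ⬝ᵥ (b j).ofLp = _
    rw [h1]
    by_cases h : i = j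
    · subst h; simp
    · rw [if_neg h, if_neg (Ne.symm h)]
  have hli : LinearIndependent ℝ v := by
    rw [Fintype.linearIndependent_iff]
    intro c hc i
    have h1 : v i ⬝ᵥ (∑ j, c j • v j) = 0 := by rw [hc, dotProduct_zero]
    rw [dotProduct_sum] at h1
    simp_rw [dotProduct_smul, hon, smul_eq_mul] at h1
    simpa using h1
  have hne : ∀ i, lam i ≠ 0 := by
    intro i h0
    have h1 := hev i
    rw [h0, zero_smul] at h1
    have h2 := (Matrix.mulVec_injective_iff_isUnit.2 hu) (h1.trans (mulVec_zero H).symm)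
    have h3 := hon i i
    rw [h2] at h3
    simp at h3
  have key : ∀ (S : Set ι) (x : ι → ℝ), x ∈ Submodule.span ℝ (v '' S) →
      ∃ c : ι → ℝ, (∀ i, i ∉ S → c i = 0) ∧ x = ∑ i, c i • v i := by
    intro S x hx
    rw [Submodule.mem_span_image_iff_exists_fun] at hx
    obtain ⟨t, ht, c, rfl⟩ := hx
    refine ⟨fun i => if h : i ∈ t then c ⟨i, h⟩ else 0, ?_, ?_⟩
    · intro i hi
      have : i ∉ t := fun h => hi (ht h)
      simp only [dif_neg this]
    · rw [← Finset.sum_subset (Finset.subset_univ t)]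
      · rw [← Finset.sum_coe_sort t]
        refine Finset.sum_congr rfl fun i _ => ?_
        simp only [dif_pos i.2]
      · intro i _ hi
        simp only [dif_neg hi, zero_smul]
  have hq : ∀ c : ι → ℝ, (∑ i, c i • v i) ⬝ᵥ (H *ᵥ (∑ i, c i • v i)) =
      ∑ i, lam i * c i ^ 2 := by
    intro c
    have h1 : H *ᵥ (∑ i, c i • v i) = ∑ i, (c i * lam i) • v i := by
      rw [mulVec_sum]
      refine Finset.sum_congr rfl fun i _ => ?_
      rw [mulVec_smul, hev, smul_smul]
    rw [h1, sum_dotProduct]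
    refine Finset.sum_congr rfl fun i _ => ?_
    rw [dotProduct_sum]
    simp_rw [dotProduct_smul, smul_dotProduct, hon, smul_eq_mul]
    simp only [mul_ite, mul_one, mul_zero, Finset.sum_ite_eq, Finset.mem_univ, if_true]
    ring
  have hfr : ∀ S : Set ι, finrank ℝ (Submodule.span ℝ (v '' S)) = S.ncard := by
    intro S
    have h1 : LinearIndependent ℝ (fun i : S => v i) := hli.comp _ Subtype.val_injective
    have h2 := finrank_span_eq_card h1
    rw [← Set.image_eq_range] at h2
    rw [h2, ← Nat.card_coe_set_eq, Nat.card_eq_fintype_card]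
  refine ⟨Submodule.span ℝ (v '' {i | 0 < lam i}), Submodule.span ℝ (v '' {i | 0 < lam i}ᶜ),
    ?_, ?_, ?_⟩
  · intro x hx hx0
    obtain ⟨c, hc, rfl⟩ := key _ _ hx
    rw [hq]
    have hex : ∃ i, c i ≠ 0 := by
      by_contra hcon
      push Not at hcon
      apply hx0
      refine Finset.sum_eq_zero fun i _ => ?_
      rw [hcon i, zero_smul]
    obtain ⟨i, hi⟩ := hex
    refine Finset.sum_pos' (fun j _ => ?_) ⟨i, Finset.mem_univ i, ?_⟩
    · by_cases hj : 0 < lam j
      · positivity
      · rw [hc j hj]; simp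
    · have hli : 0 < lam i := by
        by_contra hcon
        exact hi (hc i hcon)
      positivity
  · intro x hx hx0
    obtain ⟨c, hc, rfl⟩ := key _ _ hx
    rw [neg_mulVec, dotProduct_neg, hq, ← Finset.sum_neg_distrib]
    have hex : ∃ i, c i ≠ 0 := by
      by_contra hcon
      push Not at hcon
      apply hx0
      refine Finset.sum_eq_zero fun i _ => ?_
      rw [hcon i, zero_smul]
    obtain ⟨i, hi⟩ := hex
    refine Finset.sum_pos' (fun j _ => ?_) ⟨i, Finset.mem_univ i, ?_⟩
    · by_cases hj : 0 < lam j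
      · rw [hc j (fun h => h hj)]; simp
      · push Not at hj
        have := sq_nonneg (c j)
        nlinarith
    · have hli : lam i < 0 := by
        have h1 : ¬ 0 < lam i := by
          intro hcon
          exact hi (hc i (fun h => h hcon))
        exact lt_of_le_of_ne (not_lt.1 h1) (hne i)
      have : 0 < c i ^ 2 := by positivity
      nlinarith
  · rw [hfr, hfr, Set.ncard_add_ncard_compl, Nat.card_eq_fintype_card]

/-- positivity on a subspace is an open condition -/
theorem PosOn.eventually {X : Type*} [TopologicalSpace X] {H : X → Matrix ι ι ℝ} {t : X}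
    {W : Submodule ℝ (ι → ℝ)} (h : PosOn (H t) W)
    (hc : ∀ i j, ContinuousAt (fun s => H s i j) t) : ∀ᶠ s in 𝓝 t, PosOn (H s) W := by
  set K : Set (ι → ℝ) := {x | x ∈ W ∧ ‖x‖ = 1} with hK
  have hKc : IsCompact K := by
    have h1 : IsClosed (W : Set (ι → ℝ)) := W.closed_of_finiteDimensional
    have h2 : IsCompact (Metric.sphere (0 : ι → ℝ) 1) := isCompact_sphere _ _
    have h3 : K = Metric.sphere (0 : ι → ℝ) 1 ∩ (W : Set (ι → ℝ)) := by
      ext x
      simp only [hK, Set.mem_ofPred_eq, Set.mem_inter_iff, mem_sphere_iff_norm, sub_zero,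
        SetLike.mem_coe]
      exact and_comm
    rw [h3]
    exact h2.inter_right h1
  have hev := hKc.eventually_forall_of_forall_eventually (x₀ := t)
    (P := fun s x => 0 < x ⬝ᵥ (H s *ᵥ x)) (by
      intro x hx
      have hx0 : x ≠ 0 := by
        rintro rfl
        have := hx.2
        simp at this
      have h1 : 0 < x ⬝ᵥ (H t *ᵥ x) := h x hx.1 hx0
      have h2 : ContinuousAt (fun p : X × (ι → ℝ) => p.2 ⬝ᵥ (H p.1 *ᵥ p.2)) (t, x) := by
        simp only [dotProduct, mulVec]
        refine tendsto_finsetSum _ fun i _ => ?_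
        refine Tendsto.mul ?_ ?_
        · exact ((continuous_apply i).comp continuous_snd).continuousAt
        · refine tendsto_finsetSum _ fun j _ => ?_
          refine Tendsto.mul ?_ ?_
          · exact (hc i j).comp (x := (t, x)) continuousAt_fst
          · exact ((continuous_apply j).comp continuous_snd).continuousAt
      exact h2.eventually (lt_mem_nhds h1))
  filter_upwards [hev] with s hs x hx hx0
  have hn : 0 < ‖x‖ := norm_pos_iff.2 hx0
  have h1 := hs (‖x‖⁻¹ • x) ⟨W.smul_mem _ hx, by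
    rw [norm_smul, norm_inv, norm_norm, inv_mul_cancel₀ hn.ne']⟩
  rw [mulVec_smul, dotProduct_smul, smul_dotProduct, smul_eq_mul, smul_eq_mul] at h1
  have h2 : 0 < ‖x‖⁻¹ := inv_pos.2 hn
  exact (mul_pos_iff_of_pos_left h2).1 ((mul_pos_iff_of_pos_left h2).1 h1)

/-- The index is constant along a path of nonsingular symmetric matrices. -/
theorem index_const {H : ℝ → Matrix ι ι ℝ} {t₀ t₂ t₁ t : ℝ}
    (hc : ∀ s ∈ Ioo t₀ t₂, ∀ i j, ContinuousAt (fun s => H s i j) s)
    (hs : ∀ s ∈ Ioo t₀ t₂, (H s)ᵀ = H s) (hu : ∀ s ∈ Ioo t₀ t₂, IsUnit (H s))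
    (ht₁ : t₁ ∈ Ioo t₀ t₂) (ht : t ∈ Ioo t₀ t₂) {W : Submodule ℝ (ι → ℝ)}
    (hW : PosOn (H t₁) W) :
    ∃ W' : Submodule ℝ (ι → ℝ), finrank ℝ W' = finrank ℝ W ∧ PosOn (H t) W' := by
  set k := finrank ℝ W with hk
  set f : ℝ → Prop := fun s => ∃ W' : Submodule ℝ (ι → ℝ), finrank ℝ W' = k ∧ PosOn (H s) W'
    with hf
  have hu1 : IsOpen {s | s ∈ Ioo t₀ t₂ ∧ f s} := by
    rw [isOpen_iff_mem_nhds]
    rintro s ⟨hs1, W', hW', hp⟩
    filter_upwards [isOpen_Ioo.mem_nhds hs1, hp.eventually (hc s hs1)] with r hr1 hr2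
    exact ⟨hr1, W', hW', hr2⟩
  have hv1 : IsOpen {s | s ∈ Ioo t₀ t₂ ∧ ¬ f s} := by
    rw [isOpen_iff_mem_nhds]
    rintro s ⟨hs1, hnf⟩
    obtain ⟨W0, V0, hW0, hV0, hdim⟩ := exists_pos_neg (hs s hs1) (hu s hs1)
    have hlt : finrank ℝ W0 < k := by
      by_contra hcon
      push Not at hcon
      obtain ⟨W', hle, hfr⟩ := exists_sub_of_le hcon
      exact hnf ⟨W', hfr, hW0.mono hle⟩
    have hcn : ∀ i j, ContinuousAt (fun s => (fun r => -H r) s i j) s := fun i j => by
      exact (hc s hs1 i j).neg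
    filter_upwards [isOpen_Ioo.mem_nhds hs1, PosOn.eventually (H := fun r => -H r) hV0 hcn]
      with r hr1 hr2
    refine ⟨hr1, ?_⟩
    rintro ⟨W', hfr, hp⟩
    have := hp.finrank_add_le hr2
    omega
  have hpre := isPreconnected_Ioo (a := t₀) (b := t₂)
  rw [isPreconnected_iff_subset_of_disjoint] at hpre
  rcases hpre _ _ hu1 hv1 (fun s hs => by
      by_cases h : f s
      · exact Or.inl ⟨hs, h⟩
      · exact Or.inr ⟨hs, h⟩) (by
      ext s
      simp only [Set.mem_inter_iff, Set.mem_ofPred_eq, Set.mem_empty_iff_false, iff_false]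
      rintro ⟨_, ⟨_, h1⟩, _, h2⟩
      exact h2 h1) with h | h
  · exact (h ht).2
  · exact absurd ⟨W, hk.symm, hW⟩ (h ht₁).2

end

end Vale.Agent.P231.H703
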