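import Vale.Agent.P231.H703.Const

/-! P231 (L3): the nullity `dim ker d(exp_x)_{Dv}` of a Blaschke manifold is constant. -/

set_option maxSynthPendingDepth 3
set_option linter.unusedSectionVars false

open Bundle Manifold Set Filter Module
open scoped ContDiff Manifold Topology Matrix

namespace Vale.Agent.P231.H703

noncomputable section

open Vale.Agent.P234 Vale.Agent.P231

theorem posOn_congr {N : ℕ} {H O : Matrix (Fin N) (Fin N) ℝ} (hO : IsUnit O)
    {W : Submodule ℝ (Fin N → ℝ)} (hW : PosOn H W) :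
    ∃ W' : Submodule ℝ (Fin N → ℝ), finrank ℝ W' = finrank ℝ W ∧ PosOn (Oᵀ * H * O) W' := by
  have hi : Function.Injective O.mulVecLin := Matrix.mulVec_injective_iff_isUnit.2 hO
  have hb : Function.Bijective O.mulVecLin := ⟨hi, LinearMap.injective_iff_surjective.1 hi⟩
  let f := LinearEquiv.ofBijective O.mulVecLin hb
  refine ⟨W.comap (f : (Fin N → ℝ) →ₗ[ℝ] (Fin N → ℝ)), ?_, ?_⟩
  · rw [Submodule.comap_equiv_eq_map_symm]
    exact LinearEquiv.finrank_map_eq _ _
  · intro x hx hx0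
    have h1 : O *ᵥ x ∈ W := hx
    have h2 : O *ᵥ x ≠ 0 := fun h => hx0 (hi (h.trans (Matrix.mulVec_zero O).symm))
    have h3 := hW _ h1 h2
    rw [← Matrix.mulVec_mulVec, ← Matrix.mulVec_mulVec, Matrix.dotProduct_mulVec x,
      Matrix.vecMul_transpose]
    exact h3

variable {E : Type*} [NormedAddCommGroup E] [NormedSpace ℝ E]
  {M : Type*} [MetricSpace M] [ChartedSpace E M]
  [RiemannianBundle (fun x : M => TangentSpace 𝓘(ℝ, E) x)]
  {e : ∀ x : M, TangentSpace 𝓘(ℝ, E) x → M}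
  [FiniteDimensional ℝ E] [IsManifold 𝓘(ℝ, E) ∞ M]
  [IsContMDiffRiemannianBundle 𝓘(ℝ, E) ∞ E (fun x : M => TangentSpace 𝓘(ℝ, E) x)]
  [CompactSpace M] [ConnectedSpace M] [IsRiemannianManifold 𝓘(ℝ, E) M]

/-- the nullity at `(x, v)` -/
def nlt (e : ∀ x : M, TangentSpace 𝓘(ℝ, E) x → M) (D : ℝ) (x : M) (v : E) : ℕ :=
  finrank ℝ (Ker e D x (v : TangentSpace 𝓘(ℝ, E) x))

/-- along a convergent sequence of unit vectors a subsequence has the nullity of the limit -/
theorem exists_nlt_eq (F : Facts e) {D : ℝ} (hD : 0 < D) (hB : InjGE e D)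
    (hcl : ∀ (x : M) (v : E), nm x v = 2 * D → e x v = x)
    {N : ℕ} (hN : finrank ℝ E = N + 1) {z : ℕ → M} {v : ℕ → E} {z₀ : M} {v₀ : E}
    (h : Tendsto (fun k => tb (z k) (v k)) atTop (𝓝 (tb z₀ v₀)))
    (hv : ∀ k, nm (z k) (v k) = 1) :
    ∃ φ : ℕ → ℕ, StrictMono φ ∧ ∀ᶠ k in atTop, nlt e D (z (φ k)) (v (φ k)) = nlt e D z₀ v₀ := by
  obtain ⟨φ, A₀, A, O, hφ, hJ₀, hJ, hn₀, hn, hO, hT⟩ := exists_limit F hD hB hcl hN h hv
  refine ⟨φ, hφ, ?_⟩
  have t1 : (0 : ℝ) < D / 2 := by linarith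
  have t2 : D / 2 < 0 + D := by linarith
  have t3 : 0 + D < 5 * D / 4 := by linarith
  have t4 : 5 * D / 4 < D / 2 + D := by linarith
  obtain ⟨W, hW, hp⟩ := exists_posOn_of_nul hJ₀ t1 t2 t3 t4
  obtain ⟨W', hW', hp'⟩ := posOn_congr hO hp
  have hu1 : IsUnit (A₀ (D / 2) (5 * D / 4)) := hJ₀.unit _ _ (by linarith) (by linarith)
  have hu2 : IsUnit (A₀ (D / 2) 0) := hJ₀.unit_symm (hJ₀.unit _ _ (by linarith) (by linarith))
  have hu3 : IsUnit (A₀ 0 (5 * D / 4)) := hJ₀.unit' (by linarith) (by linarith) (by linarith)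
  obtain ⟨W₁, V₁, hW₁, hV₁, hsum⟩ := exists_pos_neg (hJ₀.Hc_symm hu2 hu1)
    (isUnit_Hc hJ₀ hu2 hu1 hu3)
  have hle := finrank_le_nul hJ₀ t1 t2 t3 t4 hW₁
  obtain ⟨V', hV', hq'⟩ := posOn_congr hO hV₁
  have hneg : Oᵀ * -Hc A₀ (D / 2) 0 (5 * D / 4) * O =
      -(Oᵀ * Hc A₀ (D / 2) 0 (5 * D / 4) * O) := by
    rw [Matrix.mul_neg, Matrix.neg_mul]
  rw [hneg] at hq'
  have ev1 := hT.eventually (PosOn.eventually (H := fun Z : Matrix (Fin N) (Fin N) ℝ => Z) hp'
    (fun i j => ((continuous_apply j).comp (continuous_apply i)).continuousAt))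
  have ev2 := hT.eventually (PosOn.eventually (H := fun Z : Matrix (Fin N) (Fin N) ℝ => -Z) hq'
    (fun i j => by
      have h1 : Continuous fun Z : Matrix (Fin N) (Fin N) ℝ => Z i j :=
        (continuous_apply j).comp (continuous_apply i)
      exact h1.neg.continuousAt))
  filter_upwards [ev1, ev2] with k hk1 hk2
  have h1 := finrank_le_nul (hJ k) t1 t2 t3 t4 hk1
  obtain ⟨Wk, hWk, hpk⟩ := exists_posOn_of_nul (hJ k) t1 t2 t3 t4
  have h2 := hpk.finrank_add_le hk2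
  have e1 : nul (A k) D 0 = nlt e D (z (φ k)) (v (φ k)) := hn k
  have e2 : nul A₀ D 0 = nlt e D z₀ v₀ := hn₀
  rw [Fintype.card_fin] at hsum h2
  omega

/-- the nullity in dimension `N + 1` is at most `N` -/
theorem finrank_Ker_le (F : Facts e) {D : ℝ} (hD : 0 < D) {N : ℕ} (hN : finrank ℝ E = N + 1)
    (x : M) {v : TangentSpace 𝓘(ℝ, E) x} (hv : ‖v‖ = 1) : finrank ℝ (Ker e D x v) ≤ N := by
  have hv0 : v ≠ 0 := by
    rintro rfl
    rw [norm_zero] at hv
    exact zero_ne_one hv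
  have h1 := Submodule.finrank_add_finrank_orthogonal (ℝ ∙ v)
  rw [finrank_span_singleton hv0] at h1
  have h2 : Ker e D x v ≤ (ℝ ∙ v)ᗮ := by
    intro w hw
    rw [Submodule.mem_orthogonal_singleton_iff_inner_right]
    exact inner_of_dE_eq_zero F hD hv hw
  have h3 := Submodule.finrank_mono h2
  have h4 : finrank ℝ (TangentSpace 𝓘(ℝ, E) x) = N + 1 := hN
  omega

theorem nlt_le (F : Facts e) {D : ℝ} (hD : 0 < D) {N : ℕ} (hN : finrank ℝ E = N + 1)
    (x : M) {v : E} (hv : nm x v = 1) : nlt e D x v ≤ N :=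
  finrank_Ker_le F hD hN x (v := v) hv

/-- the nullity is constant on every unit sphere -/
theorem nlt_sphere (F : Facts e) {D : ℝ} (hD : 0 < D) (hB : InjGE e D)
    (hcl : ∀ (x : M) (v : E), nm x v = 2 * D → e x v = x)
    {N : ℕ} (hN : finrank ℝ E = N + 1) (x : M) {v w : E} (hv : nm x v = 1) (hw : nm x w = 1) :
    nlt e D x v = nlt e D x w := by
  rcases Nat.eq_zero_or_pos N with rfl | hN0
  · have h1 := nlt_le F hD hN x hv
    have h2 := nlt_le F hD hN x hw
    omega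
  have hr : 1 < Module.rank ℝ (TangentSpace 𝓘(ℝ, E) x) := by
    rw [← Module.finrank_eq_rank]
    have : finrank ℝ (TangentSpace 𝓘(ℝ, E) x) = N + 1 := hN
    rw [this]
    exact_mod_cast (by omega : 1 < N + 1)
  have hpre := isPreconnected_sphere hr (0 : TangentSpace 𝓘(ℝ, E) x) 1
  have hc : ContinuousOn (fun u : TangentSpace 𝓘(ℝ, E) x => nlt e D x u)
      (Metric.sphere (0 : TangentSpace 𝓘(ℝ, E) x) 1) := by
    rw [continuousOn_iff_continuous_domRestrict, continuous_iff_continuousAt]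
    rintro ⟨u₀, hu₀⟩
    unfold ContinuousAt
    rw [tendsto_iff_seq_tendsto]
    intro s hs
    apply tendsto_of_subseq_tendsto
    intro ns hns
    have hs' : Tendsto (fun k => (s (ns k)).1) atTop (𝓝 u₀) :=
      ((continuous_subtype_val.tendsto _).comp hs).comp hns
    have hTB : TendstoTB (z := fun _ => x) (fun k => (s (ns k)).1) u₀ :=
      tendstoTB_const_base.2 hs'
    obtain ⟨φ, hφ, hev⟩ := exists_nlt_eq F hD hB hcl hN (z := fun _ => x)
      (v := fun k => ((s (ns k)).1 : TangentSpace 𝓘(ℝ, E) x)) (z₀ := x) (v₀ := u₀) hTB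
      (fun k => mem_sphere_zero_iff_norm.1 (s (ns k)).2)
    refine ⟨φ, ?_⟩
    exact tendsto_const_nhds.congr' (hev.mono fun k hk => hk.symm)
  exact hpre.constant hc (mem_sphere_zero_iff_norm.2 hv) (mem_sphere_zero_iff_norm.2 hw)

/-- **L3**: the nullity is constant. -/
theorem nlt_const (F : Facts e) {D : ℝ} (hD : 0 < D) (hB : InjGE e D)
    (hcl : ∀ (x : M) (v : E), nm x v = 2 * D → e x v = x)
    {N : ℕ} (hN : finrank ℝ E = N + 1) {x y : M} {v w : E} (hv : nm x v = 1)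
    (hw : nm y w = 1) : nlt e D x v = nlt e D y w := by
  have hex : ∀ z : M, ∃ u : E, nm z u = 1 := by
    intro z
    have : Nontrivial (Eu E) := by
      have : 0 < finrank ℝ (Eu E) := by rw [finrank_euclideanSpace, Fintype.card_fin, hN]; omega
      exact (finrank_pos_iff (R := ℝ)).1 this
    obtain ⟨a, ha⟩ := exists_norm_eq (Eu E) zero_le_one
    exact ⟨fr z a, by rw [nm_fr, ha]⟩
  choose u hu using hex
  have hc : Continuous (fun z : M => nlt e D z (u z)) := by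
    rw [continuous_iff_continuousAt]
    intro z₀
    unfold ContinuousAt
    rw [tendsto_iff_seq_tendsto]
    intro s hs
    apply tendsto_of_subseq_tendsto
    intro ns hns
    obtain ⟨z', v', φ, hφ, hT⟩ := exists_tendstoTB (fun k => s (ns k))
      (fun k => Jac.up (s (ns k)) (u (s (ns k)))) 1 (fun k => (hu _).le)
    have hz' : z' = z₀ := tendsto_nhds_unique hT.base ((hs.comp hns).comp hφ.tendsto_atTop)
    subst hz'
    have hT' : Tendsto (fun k => tb (s (ns (φ k))) (u (s (ns (φ k))))) atTop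
      (𝓝 (tb z' v')) := hT
    obtain ⟨ψ, hψ, hev⟩ := exists_nlt_eq F hD hB hcl hN hT' (fun k => hu _)
    refine ⟨fun k => φ (ψ k), ?_⟩
    have hv' : nm (E := E) z' v' = 1 := by
      have h1 := Jac.tendsto_nm hT'
      simp only [hu] at h1
      exact (tendsto_nhds_unique h1 tendsto_const_nhds)
    have h2 : nlt (E := E) e D z' v' = nlt e D z' (u z') :=
      nlt_sphere F hD hB hcl hN z' hv' (hu z')
    refine tendsto_const_nhds.congr' (hev.mono fun k hk => ?_)
    exact (h2.symm.trans hk.symm)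
  have h1 : nlt e D x (u x) = nlt e D y (u y) :=
    isPreconnected_univ.constant hc.continuousOn (mem_univ x) (mem_univ y)
  rw [nlt_sphere F hD hB hcl hN x hv (hu x), h1, nlt_sphere F hD hB hcl hN y (hu y) hw]

/-- **L3**, in terms of `Pl`: all planes have the same dimension `l + 1`. -/
theorem exists_mult (F : Facts e) {D : ℝ} (hD : 0 < D) (hB : InjGE e D)
    (hdiam : ∀ p q : M, dist p q ≤ D) {N : ℕ} (hN : finrank ℝ E = N + 1) :
    ∃ l : ℕ, l ≤ N ∧
      (∀ (x : M) (v : TangentSpace 𝓘(ℝ, E) x), ‖v‖ = 1 → finrank ℝ (Ker e D x v) = l) ∧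
      (∀ x y : M, dist x y = D → finrank ℝ (Pl e D x y) = l + 1) := by
  have hcl : ∀ (x : M) (v : E), nm x v = 2 * D → e x v = x :=
    fun x v hv => closed_of_inj_diam F hD hB hdiam x v hv
  obtain ⟨x₀⟩ : Nonempty M := inferInstance
  have hex : ∃ u : E, nm x₀ u = 1 := by
    have : Nontrivial (Eu E) := by
      have : 0 < finrank ℝ (Eu E) := by rw [finrank_euclideanSpace, Fintype.card_fin, hN]; omega
      exact (finrank_pos_iff (R := ℝ)).1 this
    obtain ⟨a, ha⟩ := exists_norm_eq (Eu E) zero_le_one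
    exact ⟨fr x₀ a, by rw [nm_fr, ha]⟩
  obtain ⟨u, hu⟩ := hex
  have h1 : ∀ (x : M) (v : TangentSpace 𝓘(ℝ, E) x), ‖v‖ = 1 →
      finrank ℝ (Ker e D x v) = nlt e D x₀ u := fun x v hv =>
    nlt_const F hD hB hcl hN (v := v) hv hu
  refine ⟨nlt e D x₀ u, nlt_le F hD hN x₀ hu, h1, fun x y hxy => ?_⟩
  obtain ⟨v, hv⟩ := Lk_nonempty (e := e) F hD (x := y) (y := x) (by rw [dist_comm, hxy])
  rw [← finrank_Ker_add_one F hD hB hdiam hv.1 hv.2, h1 x v hv.1]

end

end Vale.Agent.P231.H703
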