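import Vale.Agent.P231.H703.Index
import Vale.Agent.P231.Bd3.B5

/-! P231: for Jacobi data of a closed geodesic, the nullity at distance `D` is the positive index of
the coordinate `Hc A a s t`, `s < a < s + D < t < a + D`. -/

open Matrix Set Filter Topology Module
open scoped ContDiff

set_option linter.unusedSectionVars false

namespace Vale.Agent.P231.H703

noncomputable section

variable {ι : Type*} [Fintype ι] [DecidableEq ι] {D : ℝ} {A : ℝ → ℝ → Matrix ι ι ℝ}

/-- nullity -/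
def nul (A : ℝ → ℝ → Matrix ι ι ℝ) (D s : ℝ) : ℕ :=
  finrank ℝ (LinearMap.ker (A s (s + D)).mulVecLin)

theorem Hc_continuousAt (h : JData D A) {a s t : ℝ} (ha : IsUnit (A a s)) (ht : IsUnit (A a t))
    (i j : ι) : ContinuousAt (fun t => Hc A a s t i j) t :=
  (h.Hc_hasDerivAt ha ht i j).continuousAt

theorem isUnit_Hc (h : JData D A) {a s t : ℝ} (ha : IsUnit (A a s)) (ht : IsUnit (A a t))
    (hst : IsUnit (A s t)) : IsUnit (Hc A a s t) := by
  have h1 : IsUnit ((A a t)⁻¹) := by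
    rw [Matrix.isUnit_iff_isUnit_det, Matrix.det_nonsing_inv]
    exact ((Matrix.isUnit_iff_isUnit_det _).1 ht).ringInverse
  have h2 : IsUnit (((A a s)⁻¹)ᵀ) := by
    rw [Matrix.isUnit_transpose, Matrix.isUnit_iff_isUnit_det, Matrix.det_nonsing_inv]
    exact ((Matrix.isUnit_iff_isUnit_det _).1 ha).ringInverse
  exact (h1.mul hst).mul h2

/-- the quadratic form of `Hc` is strictly increasing -/
theorem Hc_quad_lt (h : JData D A) {a s t t' : ℝ} (ha : IsUnit (A a s)) (h1 : a < t)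
    (h2 : t < t') (h3 : t' < a + D) {x : ι → ℝ} (hx : x ≠ 0) :
    x ⬝ᵥ (Hc A a s t *ᵥ x) < x ⬝ᵥ (Hc A a s t' *ᵥ x) := by
  have hu : ∀ τ ∈ Icc t t', IsUnit (A a τ) := fun τ hτ =>
    h.unit a τ (by linarith only [h1, hτ.1]) (by linarith only [h3, hτ.2])
  have hd : ∀ τ ∈ Icc t t', HasDerivAt (fun τ => x ⬝ᵥ (Hc A a s τ *ᵥ x))
      (x ⬝ᵥ ((Gm A a τ)⁻¹ *ᵥ x)) τ := fun τ hτ =>
    Bounds.quad_hasDerivAt (fun i j => h.Hc_hasDerivAt ha (hu τ hτ) i j) x
  obtain ⟨ξ, hξ, hξ'⟩ := exists_hasDerivAt_eq_slope (fun τ => x ⬝ᵥ (Hc A a s τ *ᵥ x))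
    (fun τ => x ⬝ᵥ ((Gm A a τ)⁻¹ *ᵥ x)) h2
    (fun τ hτ => (hd τ hτ).continuousAt.continuousWithinAt)
    (fun τ hτ => hd τ (Ioo_subset_Icc_self hτ))
  have h4 : 0 < x ⬝ᵥ ((Gm A a ξ)⁻¹ *ᵥ x) := by
    have := (h.Gm_posDef (hu ξ (Ioo_subset_Icc_self hξ))).inv.dotProduct_mulVec_pos hx
    simpa only [gt_iff_lt, star_trivial] using this
  rw [hξ', div_pos_iff] at h4
  rcases h4 with h4 | h4
  · linarith [h4.1]
  · exact absurd h4.2 (by linarith only [h2])

/-- dimension of the kernel of `Hc` at `s + D` -/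
theorem finrank_ker_Hc (h : JData D A) {a s : ℝ} (h1 : s < a) (h2 : a < s + D) :
    finrank ℝ (LinearMap.ker (Hc A a s (s + D)).mulVecLin) = nul A D s := by
  have hsa : IsUnit (A s a) := h.unit s a h1 h2
  have has : IsUnit (A a s) := h.unit_symm hsa
  have hat : IsUnit (A a (s + D)) := h.unit a _ h2 (by linarith)
  have u1 : IsUnit ((A a (s + D))⁻¹) := by
    rw [Matrix.isUnit_iff_isUnit_det, Matrix.det_nonsing_inv]
    exact ((Matrix.isUnit_iff_isUnit_det _).1 hat).ringInverse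
  have u2 : IsUnit (((A a s)⁻¹)ᵀ) := by
    rw [Matrix.isUnit_transpose, Matrix.isUnit_iff_isUnit_det, Matrix.det_nonsing_inv]
    exact ((Matrix.isUnit_iff_isUnit_det _).1 has).ringInverse
  have i1 := Matrix.mulVec_injective_iff_isUnit.2 u1
  have b2 : Function.Bijective (((A a s)⁻¹)ᵀ).mulVecLin := by
    have hi : Function.Injective (((A a s)⁻¹)ᵀ).mulVecLin :=
      Matrix.mulVec_injective_iff_isUnit.2 u2
    exact ⟨hi, LinearMap.injective_iff_surjective.1 hi⟩
  let e := LinearEquiv.ofBijective (((A a s)⁻¹)ᵀ).mulVecLin b2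
  have he : ∀ x, e x = ((A a s)⁻¹)ᵀ *ᵥ x := fun x => rfl
  have hk : LinearMap.ker (Hc A a s (s + D)).mulVecLin =
      (LinearMap.ker (A s (s + D)).mulVecLin).comap (e : (ι → ℝ) →ₗ[ℝ] (ι → ℝ)) := by
    ext x
    simp only [LinearMap.mem_ker, Submodule.mem_comap, Matrix.mulVecLin_apply,
      LinearEquiv.coe_coe, he, Hc]
    rw [← Matrix.mulVec_mulVec, ← Matrix.mulVec_mulVec]
    constructor
    · intro h0
      exact i1 (h0.trans (mulVec_zero _).symm)
    · intro h0
      rw [h0, mulVec_zero]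
  rw [hk, nul, Submodule.comap_equiv_eq_map_symm]
  exact LinearEquiv.finrank_map_eq _ _

/-- lower bound of the index beyond `s + D` -/
theorem exists_posOn_of_nul (h : JData D A) {a s t : ℝ} (h1 : s < a) (h2 : a < s + D)
    (h3 : s + D < t) (h4 : t < a + D) :
    ∃ W : Submodule ℝ (ι → ℝ), finrank ℝ W = nul A D s ∧ PosOn (Hc A a s t) W := by
  have hsa : IsUnit (A s a) := h.unit s a h1 h2
  have has : IsUnit (A a s) := h.unit_symm hsa
  refine ⟨LinearMap.ker (Hc A a s (s + D)).mulVecLin, finrank_ker_Hc h h1 h2, ?_⟩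
  intro x hx hx0
  have h5 := Hc_quad_lt h has h2 h3 h4 hx0
  have h6 : Hc A a s (s + D) *ᵥ x = 0 := hx
  rwa [h6, dotProduct_zero] at h5

/-- upper bound of the index beyond `s + D` -/
theorem finrank_le_nul (h : JData D A) {a s t : ℝ} (h1 : s < a) (h2 : a < s + D)
    (h3 : s + D < t) (h4 : t < a + D) {W : Submodule ℝ (ι → ℝ)}
    (hW : PosOn (Hc A a s t) W) : finrank ℝ W ≤ nul A D s := by
  have hsa : IsUnit (A s a) := h.unit s a h1 h2
  have has : IsUnit (A a s) := h.unit_symm hsa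
  have hat : ∀ τ, a < τ → τ < a + D → IsUnit (A a τ) := fun τ => h.unit a τ
  have hst : ∀ τ, s + D < τ → τ < a + D → IsUnit (A s τ) := fun τ h5 h6 =>
    h.unit' (by linarith [h.pos]) (by linarith) (by linarith)
  set H := fun τ => Hc A a s τ with hH
  set K := LinearMap.ker (H (s + D)).mulVecLin with hK
  -- `H (s + D)` is negative semidefinite
  have hsd : (-(H (s + D))).PosSemidef := by
    rw [Matrix.posSemidef_iff_dotProduct_mulVec]
    refine ⟨?_, fun x => ?_⟩
    · have h5 := h.Hc_symm has (hat _ h2 (by linarith))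
      rw [Matrix.IsHermitian, Matrix.conjTranspose_eq_transpose_of_trivial, transpose_neg]
      exact congrArg Neg.neg h5
    · simp only [star_trivial]
      have hc : ContinuousAt (fun τ => x ⬝ᵥ (H τ *ᵥ x)) (s + D) :=
        (Bounds.quad_hasDerivAt (fun i j =>
          h.Hc_hasDerivAt has (hat _ h2 (by linarith)) i j) x).continuousAt
      have hle : x ⬝ᵥ (H (s + D) *ᵥ x) ≤ 0 := by
        refine le_of_tendsto (hc.tendsto.mono_left (nhdsWithin_le_nhds (s := Iio (s + D)))) ?_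
        filter_upwards [self_mem_nhdsWithin, nhdsWithin_le_nhds (lt_mem_nhds h2)] with τ hτ1 hτ2
        have h6 := (h.neg_Hc_posDef h1 hτ2 hτ1).posSemidef.dotProduct_mulVec_nonneg x
        simp only [star_trivial] at h6
        rw [neg_mulVec, dotProduct_neg] at h6
        linarith
      rw [neg_mulVec, dotProduct_neg]
      linarith
  obtain ⟨V, hV⟩ := Submodule.exists_isCompl K
  have hVn : PosOn (-(H (s + D))) V := by
    intro x hx hx0
    have h5 := hsd.dotProduct_mulVec_nonneg x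
    simp only [star_trivial] at h5
    refine lt_of_le_of_ne h5 fun h6 => ?_
    have h7 := (hsd.dotProduct_mulVec_zero_iff x).1 (by simpa only [star_trivial] using h6.symm)
    have h8 : x ∈ K := by
      rw [hK, LinearMap.mem_ker, Matrix.mulVecLin_apply]
      rw [neg_mulVec, neg_eq_zero] at h7
      exact h7
    exact hx0 ((Submodule.disjoint_def.1 hV.disjoint) x h8 hx)
  have hev : ∀ᶠ τ in 𝓝 (s + D), PosOn (-(H τ)) V :=
    PosOn.eventually (H := fun τ => -(H τ)) hVn fun i j => by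
      exact (Hc_continuousAt h has (hat _ h2 (by linarith)) i j).neg
  obtain ⟨τ, hτ1, hτ2, hτ3⟩ : ∃ τ, s + D < τ ∧ τ < a + D ∧ PosOn (-(H τ)) V := by
    have h5 : ∀ᶠ τ in 𝓝[>] (s + D), s + D < τ ∧ τ < a + D ∧ PosOn (-(H τ)) V := by
      filter_upwards [self_mem_nhdsWithin, nhdsWithin_le_nhds hev,
        nhdsWithin_le_nhds (gt_mem_nhds (show s + D < a + D by linarith))] with τ h6 h7 h8
      exact ⟨h6, h8, h7⟩
    exact h5.exists
  obtain ⟨W', hW', hp⟩ := index_const (H := H) (t₀ := s + D) (t₂ := a + D)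
    (fun τ hτ i j => Hc_continuousAt h has (hat _ (by linarith [hτ.1]) hτ.2) i j)
    (fun τ hτ => h.Hc_symm has (hat _ (by linarith [hτ.1]) hτ.2))
    (fun τ hτ => isUnit_Hc h has (hat _ (by linarith [hτ.1]) hτ.2) (hst _ hτ.1 hτ.2))
    ⟨h3, h4⟩ (t := τ) ⟨hτ1, hτ2⟩ hW
  have h5 := hp.finrank_add_le hτ3
  have h6 := Submodule.finrank_add_eq_of_isCompl hV
  rw [finrank_fintype_fun_eq_card] at h6
  have h7 : finrank ℝ K = nul A D s := finrank_ker_Hc h h1 h2
  omega

end

end Vale.Agent.P231.H703
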